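import Mathlib

/-!
P102: parity relations in mixing systems. Iterates, pair limits, parity sets.
-/

open MeasureTheory Filter Set Topology
open scoped symmDiff

namespace Vale.P102

noncomputable section

variable {Ω : Type*} [MeasurableSpace Ω]

/-- Integer iterate. -/
def S (T : Ω ≃ᵐ Ω) (a : ℤ) (x : Ω) : Ω := ((T.toEquiv : Equiv.Perm Ω) ^ a) x

/-- Preimage under an integer iterate. -/
def P (T : Ω ≃ᵐ Ω) (a : ℤ) (E : Set Ω) : Set Ω := S T a ⁻¹' E

/-- Two-set mixing. -/
def Mix (μ : Measure Ω) (T : Ω ≃ᵐ Ω) : Prop :=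
  ∀ A B : Set Ω, MeasurableSet A → MeasurableSet B →
    Tendsto (fun n : ℤ => μ (A ∩ ((T.toEquiv : Equiv.Perm Ω) ^ n) ⁻¹' B)) cofinite (𝓝 (μ A * μ B))

variable {μ : Measure Ω} {T : Ω ≃ᵐ Ω}

theorem S_add (a b : ℤ) (x : Ω) : S T (a + b) x = S T a (S T b x) := by
  simp [S, zpow_add, Equiv.Perm.mul_apply]

theorem S_zero (x : Ω) : S T 0 x = x := by simp [S]

theorem mp_S (hT : MeasurePreserving T μ μ) (a : ℤ) : MeasurePreserving (S T a) μ μ := by
  induction a using Int.induction_on with
  | zero =>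
    rw [show S T 0 = id from funext S_zero]
    exact MeasurePreserving.id μ
  | succ i ih =>
    have e : S T ((i : ℤ) + 1) = S T i ∘ T := funext fun x => by
      rw [S_add]; simp [S]
    rw [e]; exact ih.comp hT
  | pred i ih =>
    have e : S T (-(i : ℤ) - 1) = S T (-(i:ℤ)) ∘ T.symm := funext fun x => by
      rw [sub_eq_add_neg, S_add]; simp [S]
    rw [e]; exact ih.comp (hT.symm T)

theorem mem_P {a : ℤ} {E : Set Ω} {x : Ω} : x ∈ P T a E ↔ S T a x ∈ E := Iff.rfl

theorem P_inter (a : ℤ) (E F : Set Ω) : P T a (E ∩ F) = P T a E ∩ P T a F := rfl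

theorem P_P (a b : ℤ) (E : Set Ω) : P T a (P T b E) = P T (b + a) E := by
  ext x; simp [P, S_add]

theorem measurableSet_P (hT : MeasurePreserving T μ μ) (a : ℤ) {E : Set Ω} (hE : MeasurableSet E) :
    MeasurableSet (P T a E) :=
  (mp_S hT a).measurable hE

theorem real_P (hT : MeasurePreserving T μ μ) (a : ℤ) {E : Set Ω} (hE : MeasurableSet E) :
    μ.real (P T a E) = μ.real E := by
  simp only [measureReal_def, P, (mp_S hT a).measure_preimage hE.nullMeasurableSet]

variable {k : ℕ}

/-- The times spread out. -/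
def Spread (t : ℕ → Fin k → ℤ) : Prop :=
  ∀ i j : Fin k, i ≠ j → Tendsto (fun n => t n i - t n j) atTop cofinite

theorem Spread.comp {t : ℕ → Fin k → ℤ} (h : Spread t) {φ : ℕ → ℕ}
    (hφ : Tendsto φ atTop atTop) : Spread (t ∘ φ) :=
  fun i j hij => (h i j hij).comp hφ

theorem pair_limit [IsFiniteMeasure μ] (hT : MeasurePreserving T μ μ) (hmix : Mix μ T)
    {E F : Set Ω} (hE : MeasurableSet E) (hF : MeasurableSet F) {a b : ℕ → ℤ}
    (hab : Tendsto (fun n => b n - a n) atTop cofinite) :
    Tendsto (fun n => μ.real (P T (a n) E ∩ P T (b n) F)) atTop (𝓝 (μ.real E * μ.real F)) := by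
  have h := ((ENNReal.tendsto_toReal (ENNReal.mul_ne_top (measure_ne_top μ E)
    (measure_ne_top μ F))).comp (hmix E F hE hF)).comp hab
  simp only [ENNReal.toReal_mul, ← measureReal_def] at h
  refine h.congr fun n => ?_
  show μ.real (E ∩ P T (b n - a n) F) = _
  rw [← real_P hT (a n) (hE.inter (measurableSet_P hT _ hF)), P_inter, P_P, sub_add_cancel]

/-- Parity function of a set along the times `t`. -/
def par (T : Ω ≃ᵐ Ω) (t : Fin k → ℤ) (A : Set Ω) (x : Ω) : ZMod 2 :=
  ∑ i, A.indicator (fun _ => (1 : ZMod 2)) (S T (t i) x)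

/-- The exceptional set of the parity relation. -/
def D (T : Ω ≃ᵐ Ω) (A : Set Ω) (c : ZMod 2) (t : Fin k → ℤ) : Set Ω :=
  {x | c + par T t A x = 1}

theorem indicator_D (A : Set Ω) (c : ZMod 2) (t : Fin k → ℤ) (x : Ω) :
    (D T A c t).indicator (fun _ => (1 : ZMod 2)) x = c + par T t A x := by
  by_cases h : x ∈ D T A c t
  · rw [Set.indicator_of_mem h]; exact h.symm
  · rw [Set.indicator_of_notMem h]
    have h' : c + par T t A x ≠ 1 := h
    revert h'
    generalize c + par T t A x = z
    revert z; decide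

/-- The exchange identity between two parity relations. -/
theorem exchange (A : Set Ω) (c : ZMod 2) (t u : Fin k → ℤ) (p : Ω) :
    ∑ j, (D T A c t).indicator (fun _ => (1 : ZMod 2)) (S T (u j) p) =
      ∑ i, (D T A c u).indicator (fun _ => (1 : ZMod 2)) (S T (t i) p) := by
  simp only [indicator_D, par, Finset.sum_add_distrib]
  congr 1
  rw [Finset.sum_comm]
  simp only [← S_add, add_comm]

theorem measurable_par (hT : MeasurePreserving T μ μ) (t : Fin k → ℤ) {A : Set Ω}
    (hA : MeasurableSet A) : Measurable (par T t A) :=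
  Finset.measurable_sum _ fun i _ =>
    (measurable_const.indicator hA).comp (mp_S hT (t i)).measurable

theorem measurableSet_D (hT : MeasurePreserving T μ μ) {A : Set Ω} (hA : MeasurableSet A)
    (c : ZMod 2) (t : Fin k → ℤ) : MeasurableSet (D T A c t) :=
  ((measurable_par hT t hA).const_add c) (MeasurableSet.singleton 1)

/-- Real indicator count along the times `t`. -/
def cnt (T : Ω ≃ᵐ Ω) (t : Fin k → ℤ) (Q : Set Ω) (x : Ω) : ℝ :=
  ∑ i, Q.indicator (fun _ => (1 : ℝ)) (S T (t i) x)

theorem D_symmDiff_le (A Q : Set Ω) (c : ZMod 2) (t : Fin k → ℤ) (x : Ω) :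
    (D T (A ∆ Q) c t).indicator (fun _ => (1 : ℝ)) x ≤
      |cnt T t Q x - (D T A c t).indicator (fun _ => (1 : ℝ)) x| := by
  classical
  set K : ℕ := (Finset.univ.filter fun i => S T (t i) x ∈ Q).card with hK
  have h1 : cnt T t Q x = K := by simp [cnt, hK, Set.indicator_apply]
  have h2 : par T t (A ∆ Q) x = par T t A x + (K : ZMod 2) := by
    have : (K : ZMod 2) = ∑ i, Q.indicator (fun _ => (1 : ZMod 2)) (S T (t i) x) := by
      simp [hK, Set.indicator_apply]
    rw [this, par, par, ← Finset.sum_add_distrib]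
    refine Finset.sum_congr rfl fun i _ => ?_
    by_cases ha : S T (t i) x ∈ A <;> by_cases hq : S T (t i) x ∈ Q <;>
      simp [Set.mem_symmDiff, ha, hq]
    decide
  by_cases h : x ∈ D T (A ∆ Q) c t
  · rw [Set.indicator_of_mem h, h1]
    have h' : c + par T t A x + (K : ZMod 2) = 1 := by
      rw [add_assoc, ← h2]; exact h
    have key : ∀ d : ℕ, (d : ZMod 2) = c + par T t A x → (1:ℝ) ≤ |(K:ℝ) - d| := by
      intro d hd
      have hne : (K : ℤ) ≠ d := by
        intro e
        rw [← hd, Int.natCast_inj.1 e, CharTwo.add_self_eq_zero] at h'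
        exact zero_ne_one h'
      exact_mod_cast Int.one_le_abs (sub_ne_zero.2 hne)
    by_cases h0 : x ∈ D T A c t
    · rw [Set.indicator_of_mem h0]
      simpa using key 1 (by simpa using h0.symm)
    · rw [Set.indicator_of_notMem h0]
      have e := indicator_D (T := T) A c t x
      rw [Set.indicator_of_notMem h0] at e
      simpa using key 0 (by simpa using e)
  · rw [Set.indicator_of_notMem h]; exact abs_nonneg _

end

end Vale.P102
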