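import Vale.Agent.P102.Basic

/-!
P102: covering estimates between parity relations at two scales.
-/

open MeasureTheory Filter Set Topology
open scoped symmDiff

namespace Vale.P102

noncomputable section

variable {Ω : Type*} [MeasurableSpace Ω] {μ : Measure Ω} {T : Ω ≃ᵐ Ω} {k : ℕ}

/-- Real indicator. -/
def ind (E : Set Ω) : Ω → ℝ := E.indicator fun _ => 1

theorem ind_nonneg (E : Set Ω) (x : Ω) : 0 ≤ ind E x :=
  Set.indicator_nonneg (fun _ _ => zero_le_one) x

theorem ind_le_one (E : Set Ω) (x : Ω) : ind E x ≤ 1 := by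
  by_cases h : x ∈ E <;> simp [ind, h]

theorem integrable_ind [IsFiniteMeasure μ] {E : Set Ω} (hE : MeasurableSet E) :
    Integrable (ind E) μ :=
  (integrable_const 1).indicator hE

theorem integral_ind [IsFiniteMeasure μ] {E : Set Ω} (hE : MeasurableSet E) :
    ∫ x, ind E x ∂μ = μ.real E := by
  simp [ind, integral_indicator_const _ hE]

theorem integral_ind_S [IsFiniteMeasure μ] (hT : MeasurePreserving T μ μ) (a : ℤ) {E : Set Ω}
    (hE : MeasurableSet E) : ∫ x, ind E (S T a x) ∂μ = μ.real E := by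
  have h : (fun x => ind E (S T a x)) = ind (P T a E) := by
    funext x; by_cases hx : S T a x ∈ E <;> simp [ind, P, hx]
  rw [h, integral_ind (measurableSet_P hT a hE), real_P hT a hE]

theorem integrable_ind_S [IsFiniteMeasure μ] (hT : MeasurePreserving T μ μ) (a : ℤ) {E : Set Ω}
    (hE : MeasurableSet E) : Integrable (fun x => ind E (S T a x)) μ :=
  ((mp_S hT a).integrable_comp (integrable_ind hE).aestronglyMeasurable).2 (integrable_ind hE)

theorem cnt_eq (t : Fin k → ℤ) (Q : Set Ω) (x : Ω) :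
    cnt T t Q x = ∑ i, ind Q (S T (t i) x) := rfl

theorem integrable_cnt [IsFiniteMeasure μ] (hT : MeasurePreserving T μ μ) (t : Fin k → ℤ)
    {Q : Set Ω} (hQ : MeasurableSet Q) : Integrable (cnt T t Q) μ :=
  integrable_finsetSum _ fun i _ => integrable_ind_S hT (t i) hQ

theorem integral_cnt [IsFiniteMeasure μ] (hT : MeasurePreserving T μ μ) (t : Fin k → ℤ)
    {Q : Set Ω} (hQ : MeasurableSet Q) : ∫ x, cnt T t Q x ∂μ = k * μ.real Q := by
  simp only [cnt_eq]
  rw [integral_finsetSum _ fun i _ => integrable_ind_S hT (t i) hQ]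
  simp [integral_ind_S hT _ hQ]

/-- Sum of the pair intersections with the `j`th translate. -/
def pairs (μ : Measure Ω) (T : Ω ≃ᵐ Ω) (t : Fin k → ℤ) (j : Fin k) (E : Set Ω) : ℝ :=
  ∑ l ∈ Finset.univ.erase j, μ.real (P T (t j) E ∩ P T (t l) E)

theorem pairs_eventually_le [IsProbabilityMeasure μ] (hT : MeasurePreserving T μ μ)
    (hmix : Mix μ T) {t : ℕ → Fin k → ℤ} (ht : Spread t) (j : Fin k) {E : Set Ω}
    (hE : MeasurableSet E) {g : ℝ} (hg : 0 < g) :
    ∀ᶠ m in atTop, pairs μ T (t m) j E ≤ k * μ.real E ^ 2 + g := by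
  have h : Tendsto (fun m => pairs μ T (t m) j E) atTop
      (𝓝 (∑ _l ∈ Finset.univ.erase j, μ.real E * μ.real E)) :=
    tendsto_finsetSum _ fun l hl =>
      pair_limit hT hmix hE hE (ht l j (Finset.ne_of_mem_erase hl))
  refine h.eventually_le_const ?_
  rw [Finset.sum_const, nsmul_eq_mul]
  have hc : ((Finset.univ.erase j).card : ℝ) ≤ k := by
    exact_mod_cast (Finset.card_le_univ _).trans_eq (Fintype.card_fin k)
  nlinarith [mul_le_mul_of_nonneg_right hc (sq_nonneg (μ.real E))]

/-- The window around the exceptional set of `t`. -/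
def Z (T : Ω ≃ᵐ Ω) (A : Set Ω) (c : ZMod 2) (t : Fin k → ℤ) : Set Ω :=
  ⋃ i, P T (-t i) (D T A c t)

theorem measurableSet_Z (hT : MeasurePreserving T μ μ) {A : Set Ω} (hA : MeasurableSet A)
    (c : ZMod 2) (t : Fin k → ℤ) : MeasurableSet (Z T A c t) :=
  MeasurableSet.iUnion fun i => measurableSet_P hT _ (measurableSet_D hT hA c t)

theorem real_Z_le (hT : MeasurePreserving T μ μ) {A : Set Ω} (hA : MeasurableSet A)
    (c : ZMod 2) (t : Fin k → ℤ) : μ.real (Z T A c t) ≤ k * μ.real (D T A c t) := by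
  refine (measureReal_iUnion_fintype_le _).trans_eq ?_
  simp [real_P hT _ (measurableSet_D hT hA c t)]

/-- The points of `D t` seen in the `j`th role from the times `u`. -/
def role (T : Ω ≃ᵐ Ω) (A : Set Ω) (c : ZMod 2) (u : Fin k → ℤ) (j : Fin k) : Set Ω :=
  P T (-u j) (D T A c u)

theorem measurableSet_role (hT : MeasurePreserving T μ μ) {A : Set Ω} (hA : MeasurableSet A)
    (c : ZMod 2) (u : Fin k → ℤ) (j : Fin k) : MeasurableSet (role T A c u j) :=
  measurableSet_P hT _ (measurableSet_D hT hA c u)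

theorem cover (A : Set Ω) (c : ZMod 2) (t u : Fin k → ℤ) (j : Fin k) (q : Ω)
    (hq : q ∈ D T A c t) (hno : ∀ l, l ≠ j → S T (u l - u j) q ∉ D T A c t) :
    ∃ i, S T (t i) q ∈ role T A c u j ∩ Z T A c t := by
  by_contra hcon
  push Not at hcon
  have h := exchange (T := T) A c t u (S T (-u j) q)
  rw [Finset.sum_eq_single j ?_ (by simp)] at h
  · simp only [← S_add, add_neg_cancel, S_zero, Set.indicator_of_mem hq] at h
    obtain ⟨i, -, hi⟩ := Finset.exists_ne_zero_of_sum_ne_zero (h ▸ (one_ne_zero : (1 : ZMod 2) ≠ 0))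
    refine hcon i ⟨?_, mem_iUnion.2 ⟨i, ?_⟩⟩
    · show S T (-u j) (S T (t i) q) ∈ D T A c u
      rw [← S_add, add_comm]
      exact Set.mem_of_indicator_ne_zero hi
    · show S T (-t i) (S T (t i) q) ∈ D T A c t
      rwa [← S_add, neg_add_cancel, S_zero]
  · intro l _ hl
    rw [← S_add, ← sub_eq_add_neg]
    exact Set.indicator_of_notMem (hno l hl) _

theorem abs_cnt_sub_le [IsProbabilityMeasure μ] (hT : MeasurePreserving T μ μ) {A : Set Ω}
    (hA : MeasurableSet A) (c : ZMod 2) (t u : Fin k → ℤ) (j : Fin k) :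
    ∫ x, |cnt T t (role T A c u j ∩ Z T A c t) x - ind (D T A c t) x| ∂μ ≤
      k * μ.real (role T A c u j ∩ Z T A c t) - μ.real (D T A c t)
        + 2 * pairs μ T u j (D T A c t) := by
  set E := D T A c t with hE
  set U := role T A c u j ∩ Z T A c t with hU
  have hEm : MeasurableSet E := measurableSet_D hT hA c t
  have hUm : MeasurableSet U := (measurableSet_role hT hA c u j).inter (measurableSet_Z hT hA c t)
  have hB : ∀ l, MeasurableSet (E ∩ P T (u l - u j) E) := fun l =>
    hEm.inter (measurableSet_P hT _ hEm)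
  have hI : Integrable (fun x => cnt T t U x - ind E x) μ :=
    (integrable_cnt (μ := μ) hT t hUm).sub (integrable_ind hEm)
  have hS : Integrable (fun x => ∑ l ∈ Finset.univ.erase j, ind (E ∩ P T (u l - u j) E) x) μ :=
    integrable_finsetSum _ fun l _ => integrable_ind (hB l)
  have hpt : ∀ x, |cnt T t U x - ind E x| ≤ (cnt T t U x - ind E x)
      + 2 * ∑ l ∈ Finset.univ.erase j, ind (E ∩ P T (u l - u j) E) x := by
    intro x
    have hc : 0 ≤ cnt T t U x := Finset.sum_nonneg fun i _ => ind_nonneg _ _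
    have hs : 0 ≤ ∑ l ∈ Finset.univ.erase j, ind (E ∩ P T (u l - u j) E) x :=
      Finset.sum_nonneg fun l _ => ind_nonneg _ _
    by_cases hx : x ∈ E
    · by_cases hno : ∀ l, l ≠ j → S T (u l - u j) x ∉ E
      · obtain ⟨i, hi⟩ := cover A c t u j x hx hno
        have h1 : 1 ≤ cnt T t U x := le_trans (by simp [ind, hU, hi]) (Finset.single_le_sum
          (fun i _ => ind_nonneg U (S T (t i) x)) (Finset.mem_univ i))
        rw [abs_of_nonneg (by simpa [ind, hx] using sub_nonneg.2 h1)]
        linarith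
      · push Not at hno
        obtain ⟨l, hl, hlE⟩ := hno
        have h1 : (1:ℝ) ≤ ∑ l ∈ Finset.univ.erase j, ind (E ∩ P T (u l - u j) E) x :=
          le_trans (by simp [ind, hx, hlE, mem_P]) (Finset.single_le_sum
            (fun l _ => ind_nonneg (E ∩ P T (u l - u j) E) x)
            (Finset.mem_erase.2 ⟨hl, Finset.mem_univ l⟩))
        rw [abs_le]
        constructor <;> linarith [ind_le_one E x, ind_nonneg E x]
    · simp only [ind, Set.indicator_of_notMem hx, sub_zero, abs_of_nonneg hc]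
      exact le_add_of_nonneg_right (by positivity)
  refine (integral_mono hI.abs (hI.add (hS.const_mul 2)) hpt).trans_eq ?_
  simp only [Pi.add_apply, Pi.sub_apply]
  rw [integral_add (hI) (hS.const_mul 2), integral_sub (integrable_cnt hT t hUm) (integrable_ind hEm),
    integral_cnt hT t hUm, integral_ind hEm, integral_const_mul,
    integral_finsetSum _ fun l _ => integrable_ind (hB l)]
  congr 2
  refine Finset.sum_congr rfl fun l _ => ?_
  rw [integral_ind (hB l), ← real_P hT (u j) (hB l), P_inter, P_P, sub_add_cancel]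

theorem real_D_le [IsProbabilityMeasure μ] (hT : MeasurePreserving T μ μ) {A : Set Ω}
    (hA : MeasurableSet A) (c : ZMod 2) (t u : Fin k → ℤ) (j : Fin k) :
    μ.real (D T A c t) ≤
      k * μ.real (role T A c u j ∩ Z T A c t) + 2 * pairs μ T u j (D T A c t) := by
  have h := abs_cnt_sub_le (μ := μ) hT hA c t u j
  have h0 : 0 ≤ ∫ x, |cnt T t (role T A c u j ∩ Z T A c t) x - ind (D T A c t) x| ∂μ :=
    integral_nonneg fun x => abs_nonneg _
  linarith

/-- The roles share the exceptional set of `u`. -/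
theorem sum_role_le [IsProbabilityMeasure μ] (hT : MeasurePreserving T μ μ) {A : Set Ω}
    (hA : MeasurableSet A) (c : ZMod 2) (u : Fin k → ℤ) {F : Set Ω} (hF : MeasurableSet F) :
    ∑ j, μ.real (role T A c u j ∩ F) ≤ μ.real (D T A c u) + ∑ j, pairs μ T u j F := by
  classical
  set E := D T A c u
  have hEm : MeasurableSet E := measurableSet_D hT hA c u
  have hG : ∀ j, MeasurableSet (E ∩ P T (u j) F) := fun j => hEm.inter (measurableSet_P hT _ hF)
  have hH : ∀ j l, MeasurableSet (P T (u j) F ∩ P T (u l) F) := fun j l =>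
    (measurableSet_P hT _ hF).inter (measurableSet_P hT _ hF)
  have e : ∀ j, μ.real (role T A c u j ∩ F) = μ.real (E ∩ P T (u j) F) := fun j => by
    rw [← real_P hT (u j) ((measurableSet_role hT hA c u j).inter hF), P_inter, role, P_P,
      neg_add_cancel]
    congr 2
  have hpt : ∀ x, ∑ j, ind (E ∩ P T (u j) F) x ≤ ind E x
      + ∑ j, ∑ l ∈ Finset.univ.erase j, ind (P T (u j) F ∩ P T (u l) F) x := by
    intro x
    have hs : ∀ j, 0 ≤ ∑ l ∈ Finset.univ.erase j, ind (P T (u j) F ∩ P T (u l) F) x :=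
      fun j => Finset.sum_nonneg fun l _ => ind_nonneg _ _
    by_cases hx : x ∈ E
    · by_cases hall : ∀ j, x ∉ P T (u j) F
      · have h0 : ∑ j, ind (E ∩ P T (u j) F) x = 0 :=
          Finset.sum_eq_zero fun j _ => by simp [ind, hall j]
        rw [h0]; exact add_nonneg (ind_nonneg _ _) (Finset.sum_nonneg fun j _ => hs j)
      push Not at hall
      obtain ⟨j₀, hj₀⟩ := hall
      rw [← Finset.add_sum_erase _ _ (Finset.mem_univ j₀)]
      refine add_le_add (by simp [ind, hx, hj₀]) ?_
      refine le_trans ?_ (Finset.sum_le_sum_of_subset_of_nonneg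
        (Finset.subset_univ (Finset.univ.erase j₀))
        fun j _ _ => hs j)
      refine Finset.sum_le_sum fun j hj => ?_
      by_cases hjF : x ∈ P T (u j) F
      · refine le_trans ?_ (Finset.single_le_sum (fun l _ => ind_nonneg _ x)
          (Finset.mem_erase.2 ⟨(Finset.ne_of_mem_erase hj).symm, Finset.mem_univ j₀⟩))
        simp [ind, hx, hjF, hj₀]
      · exact le_trans (by simp [ind, hjF]) (hs j)
    · rw [Finset.sum_eq_zero fun j _ => by simp [ind, hx]]
      exact add_nonneg (ind_nonneg _ _) (Finset.sum_nonneg fun j _ => hs j)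
  have hi2 : Integrable
      (fun x => ∑ j, ∑ l ∈ Finset.univ.erase j, ind (P T (u j) F ∩ P T (u l) F) x) μ :=
    integrable_finsetSum _ fun j _ => integrable_finsetSum _ fun l _ => integrable_ind (hH j l)
  have h := integral_mono (μ := μ) (integrable_finsetSum _ fun j _ => integrable_ind (hG j))
    ((integrable_ind hEm).add hi2) hpt
  simp only [Pi.add_apply] at h
  rw [integral_finsetSum _ fun j _ => integrable_ind (hG j), integral_add (integrable_ind hEm) hi2,
    integral_ind hEm, integral_finsetSum _ fun j _ =>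
      integrable_finsetSum _ fun l _ => integrable_ind (hH j l)] at h
  refine (le_of_eq ?_).trans (h.trans (le_of_eq ?_))
  · exact Finset.sum_congr rfl fun j _ => by rw [e j, integral_ind (hG j)]
  · refine congrArg (μ.real E + ·) (Finset.sum_congr rfl fun j _ => ?_)
    rw [integral_finsetSum _ fun l _ => integrable_ind (hH j l)]
    exact Finset.sum_congr rfl fun l _ => integral_ind (hH j l)

/-- A sequence of relations with vanishing defect contains an exact one. -/
theorem exists_exact [IsProbabilityMeasure μ] (hT : MeasurePreserving T μ μ) (hmix : Mix μ T)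
    (hk : 0 < k) {A : Set Ω} (hA : MeasurableSet A) (c : ZMod 2) {t : ℕ → Fin k → ℤ}
    (ht : Spread t) (h0 : Tendsto (fun n => μ.real (D T A c (t n))) atTop (𝓝 0)) :
    ∀ᶠ n in atTop, μ.real (D T A c (t n)) = 0 := by
  have hK : (1:ℝ) ≤ k := by exact_mod_cast hk
  filter_upwards [h0.eventually_lt_const (show (0:ℝ) < 1 / ((k:ℝ) ^ 4 + 2 * k + 1) by positivity)]
    with n hn
  set e := μ.real (D T A c (t n)) with he
  have he0 : 0 ≤ e := measureReal_nonneg
  suffices h : e ≤ ((k:ℝ) ^ 4 + 2 * k) * e ^ 2 by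
    rw [lt_div_iff₀ (by positivity)] at hn
    nlinarith
  refine le_of_forall_pos_le_add fun g hg => ?_
  have hEm := measurableSet_D (μ := μ) hT hA c (t n)
  have hZm := measurableSet_Z (μ := μ) hT hA c (t n)
  have hg' : 0 < g / (4 * k) := by positivity
  obtain ⟨m, hm1, hm2, hm3⟩ := ((eventually_all.2 fun j =>
    pairs_eventually_le hT hmix ht j hEm hg').and ((eventually_all.2 fun j =>
    pairs_eventually_le hT hmix ht j hZm hg').and
    (h0.eventually_le_const hg'))).exists
  have hsum : ∑ j : Fin k, e ≤ ∑ j : Fin k,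
      ((k:ℝ) * μ.real (role T A c (t m) j ∩ Z T A c (t n)) + 2 * (k * e ^ 2 + g / (4 * k))) :=
    Finset.sum_le_sum fun j _ => (real_D_le hT hA c (t n) (t m) j).trans
      (by linarith [hm1 j])
  rw [Finset.sum_add_distrib, ← Finset.mul_sum, Finset.sum_const, Finset.sum_const,
    Finset.card_univ, Fintype.card_fin, nsmul_eq_mul, nsmul_eq_mul, ← mul_add] at hsum
  have h1 := le_of_mul_le_mul_left hsum (by linarith)
  have hZ2 : μ.real (Z T A c (t n)) ^ 2 ≤ ((k:ℝ) * e) ^ 2 :=
    pow_le_pow_left₀ measureReal_nonneg (real_Z_le hT hA c (t n)) 2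
  have h2 : ∑ j, pairs μ T (t m) j (Z T A c (t n)) ≤ (k:ℝ) * (k * (k * e) ^ 2 + g / (4 * k)) :=
    (Finset.sum_le_sum (g := fun _ => (k:ℝ) * (k * e) ^ 2 + g / (4 * k)) fun j _ =>
      (hm2 j).trans (by gcongr)).trans_eq (by simp [mul_add])
  have h3 := sum_role_le (μ := μ) hT hA c (t m) hZm
  have h4 : (k:ℝ) * (g / (4 * k)) = g / 4 := by field_simp
  have h5 : g / (4 * k) ≤ g / 4 := div_le_div_of_nonneg_left hg.le (by norm_num) (by linarith)
  nlinarith

end

end Vale.P102
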