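import Vale.Agent.P102.Main

/-!
P102: parity relations among different sets reduce to relations of a single set.
-/

open MeasureTheory Filter Set Topology

namespace Vale.P102

noncomputable section

variable {Ω : Type*} [MeasurableSpace Ω] {μ : Measure Ω} {T : Ω ≃ᵐ Ω} {k : ℕ}

/-- Parity of several sets along the times `t`. -/
def parv (T : Ω ≃ᵐ Ω) (A : Fin k → Set Ω) (t : Fin k → ℤ) (x : Ω) : ZMod 2 :=
  ∑ i, (A i).indicator (fun _ => (1 : ZMod 2)) (S T (t i) x)

/-- The exceptional set of a parity relation among several sets. -/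
def Dv (T : Ω ≃ᵐ Ω) (A : Fin k → Set Ω) (c : ZMod 2) (t : Fin k → ℤ) : Set Ω :=
  {x | c + parv T A t x = 1}

theorem measurableSet_Dv (hT : MeasurePreserving T μ μ) {A : Fin k → Set Ω}
    (hA : ∀ i, MeasurableSet (A i)) (c : ZMod 2) (t : Fin k → ℤ) : MeasurableSet (Dv T A c t) := by
  have h : Measurable (parv T A t) := Finset.measurable_sum _ fun i _ =>
    (measurable_const.indicator (hA i)).comp (mp_S hT (t i)).measurable
  exact (h.const_add c) (MeasurableSet.singleton 1)

/-- The time attached to a permutation. -/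
def ptime (t : Fin k → Fin k → ℤ) (σ : Equiv.Perm (Fin k)) : ℤ := ∑ j, t j (σ j)

/-- The time attached to the cofactor of `σ⁻¹ i`. -/
def cofTime (t : Fin k → Fin k → ℤ) (i : Fin k) (σ : Equiv.Perm (Fin k)) : ℤ :=
  ∑ j ∈ Finset.univ.erase (σ.symm i), t j (σ j)

/-- Cofactor identity modulo two. -/
theorem cofactor (A : Fin k → Set Ω) (t : Fin k → Fin k → ℤ) (i : Fin k) (x : Ω) :
    ∑ σ : Equiv.Perm (Fin k), parv T A (t (σ.symm i)) (S T (cofTime t i σ) x) =
      ∑ σ : Equiv.Perm (Fin k), (A i).indicator (fun _ => (1 : ZMod 2)) (S T (ptime t σ) x) := by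
  classical
  simp only [parv, ← S_add]
  rw [Finset.sum_comm, Finset.sum_eq_single i]
  · refine Finset.sum_congr rfl fun σ _ => ?_
    congr 2
    unfold ptime cofTime
    rw [← Finset.add_sum_erase _ _ (Finset.mem_univ (σ.symm i)), Equiv.apply_symm_apply]
  · intro l _ hl
    refine Finset.sum_involution (fun σ _ => σ * Equiv.swap (σ.symm i) (σ.symm l))
      (fun σ _ => ?_) (fun σ _ _ => ?_) (fun σ _ => Finset.mem_univ _) (fun σ _ => ?_)
    · have e : (σ * Equiv.swap (σ.symm i) (σ.symm l)).symm i = σ.symm l := by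
        rw [Equiv.symm_apply_eq]; simp
      have key : t (σ.symm l) l + cofTime t i (σ * Equiv.swap (σ.symm i) (σ.symm l)) =
          t (σ.symm i) l + cofTime t i σ := by
        unfold cofTime
        rw [e]
        have hne : σ.symm i ≠ σ.symm l := fun h => hl (σ.symm.injective h).symm
        rw [← Finset.add_sum_erase _ _
            (Finset.mem_erase.2 ⟨hne, Finset.mem_univ (σ.symm i)⟩),
          ← Finset.add_sum_erase (Finset.univ.erase (σ.symm i)) _
            (Finset.mem_erase.2 ⟨hne.symm, Finset.mem_univ (σ.symm l)⟩),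
          Finset.erase_right_comm]
        simp only [Equiv.Perm.mul_apply, Equiv.swap_apply_left, Equiv.apply_symm_apply]
        rw [← add_assoc, ← add_assoc, add_comm (t (σ.symm l) l)]
        congr 1
        refine Finset.sum_congr rfl fun j hj => ?_
        simp only [Finset.mem_erase] at hj
        rw [Equiv.swap_apply_of_ne_of_ne hj.2.1 hj.1]
      rw [e, key]
      exact CharTwo.add_self_eq_zero _
    · intro h
      have h2 := congrArg (fun τ : Equiv.Perm (Fin k) => τ (σ.symm i)) h
      simp at h2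
      exact hl h2
    · have e1 : (σ * Equiv.swap (σ.symm i) (σ.symm l)).symm i = σ.symm l := by
        rw [Equiv.symm_apply_eq]; simp
      have e2 : (σ * Equiv.swap (σ.symm i) (σ.symm l)).symm l = σ.symm i := by
        rw [Equiv.symm_apply_eq]; simp
      rw [e1, e2, Equiv.swap_comm (σ.symm l) (σ.symm i), mul_assoc, Equiv.swap_mul_self, mul_one]
  · simp

theorem ptime_sep {g : ℕ} {t : Fin k → Fin k → ℤ}
    (h : ∀ j a b, a ≠ b → (g:ℤ) + (∑ i ∈ Finset.univ.filter (fun i => i < j), ∑ r, 2 * |t i r|) ≤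
      |t j a - t j b|)
    {σ τ : Equiv.Perm (Fin k)} (hne : σ ≠ τ) : (g:ℤ) ≤ |ptime t σ - ptime t τ| := by
  classical
  have hex : (Finset.univ.filter fun j => σ j ≠ τ j).Nonempty := by
    by_contra hc
    simp only [Finset.not_nonempty_iff_eq_empty, Finset.filter_eq_empty_iff, Finset.mem_univ,
      forall_const, not_not] at hc
    exact hne (Equiv.ext hc)
  set j := (Finset.univ.filter fun j => σ j ≠ τ j).max' hex with hj
  have hjne : σ j ≠ τ j := (Finset.mem_filter.1 (Finset.max'_mem _ hex)).2
  have hup : ∀ i, j < i → σ i = τ i := fun i hi => by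
    by_contra hc
    exact absurd (Finset.le_max' _ i (Finset.mem_filter.2 ⟨Finset.mem_univ _, hc⟩)) (not_le.2 hi)
  have e : ptime t σ - ptime t τ = (t j (σ j) - t j (τ j))
      + ∑ i ∈ Finset.univ.filter (fun i => i < j), (t i (σ i) - t i (τ i)) := by
    unfold ptime
    rw [← Finset.sum_sub_distrib, ← Finset.add_sum_erase _ _ (Finset.mem_univ j)]
    congr 1
    refine (Finset.sum_subset (fun i hi => Finset.mem_erase.2
      ⟨ne_of_lt (Finset.mem_filter.1 hi).2, Finset.mem_univ _⟩) fun i hi hni => ?_).symm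
    have hlt : j < i := lt_of_le_of_ne
      (not_lt.1 fun hc => hni (Finset.mem_filter.2 ⟨Finset.mem_univ _, hc⟩))
      (Finset.ne_of_mem_erase hi).symm
    rw [hup i hlt, sub_self]
  have hsmall : |∑ i ∈ Finset.univ.filter (fun i => i < j), (t i (σ i) - t i (τ i))| ≤
      ∑ i ∈ Finset.univ.filter (fun i => i < j), ∑ r, 2 * |t i r| := by
    refine (Finset.abs_sum_le_sum_abs _ _).trans (Finset.sum_le_sum fun i _ => ?_)
    refine (abs_sub _ _).trans ?_
    rw [← Finset.mul_sum, two_mul]
    exact add_le_add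
      (Finset.single_le_sum (fun r _ => abs_nonneg (t i r)) (Finset.mem_univ _))
      (Finset.single_le_sum (fun r _ => abs_nonneg (t i r)) (Finset.mem_univ _))
  rw [e]
  have := h j _ _ hjne
  have h3 := abs_sub_abs_le_abs_sub (t j (σ j) - t j (τ j))
    (-∑ i ∈ Finset.univ.filter (fun i => i < j), (t i (σ i) - t i (τ i)))
  rw [abs_neg, sub_neg_eq_add] at h3
  linarith

/-- Times of all orders with very fast growth. -/
theorem exists_ladder {P : (Fin k → ℤ) → Prop}
    (hP : ∀ N : ℕ, ∃ t, (∀ a b, a ≠ b → (N:ℤ) ≤ |t a - t b|) ∧ P t) (g : ℕ) (m : ℕ) :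
    ∃ t : Fin m → Fin k → ℤ, (∀ j, P (t j)) ∧ ∀ j a b, a ≠ b →
      (g:ℤ) + (∑ i ∈ Finset.univ.filter (fun i => i < j), ∑ r, 2 * |t i r|) ≤ |t j a - t j b| := by
  induction m with
  | zero => exact ⟨fun j => j.elim0, fun j => j.elim0, fun j => j.elim0⟩
  | succ m ih =>
    obtain ⟨t, hPt, ht⟩ := ih
    obtain ⟨u, hu, hPu⟩ := hP (g + (∑ i : Fin m, ∑ r, 2 * (t i r).natAbs))
    refine ⟨Fin.snoc t u, fun j => ?_, fun j => ?_⟩
    · cases j using Fin.lastCases with
      | last => simpa using hPu
      | cast j => simpa using hPt j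
    · cases j using Fin.lastCases with
      | last =>
        intro a b hab
        have := hu a b hab
        simp only [Nat.cast_add, Nat.cast_sum, Nat.cast_mul, Int.natCast_natAbs] at this
        rw [Finset.sum_filter, Fin.sum_univ_castSucc]
        simpa [Fin.castSucc_lt_last] using this
      | cast j =>
        intro a b hab
        rw [Finset.sum_filter, Fin.sum_univ_castSucc]
        have hnot : ¬ (Fin.last m < Fin.castSucc j) := not_lt.2 (Fin.le_last _)
        simpa [Finset.sum_filter, hnot] using ht j a b hab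

theorem defect_bound_multi [IsProbabilityMeasure μ] (hT : MeasurePreserving T μ μ)
    (hmix : Mix μ T) (hk : 2 ≤ k) (c : ZMod 2) {A : Fin k → Set Ω}
    (hA : ∀ i, MeasurableSet (A i)) (i : Fin k) :
    ∃ N : ℕ, ∀ t : Fin k → ℤ, (∀ a b, a ≠ b → (N:ℤ) ≤ |t a - t b|) →
      1 / (8 * k.factorial * C k.factorial) * (μ.real (A i) * (1 - μ.real (A i))) ≤
        μ.real (Dv T A c t) := by
  classical
  have hq2 : 2 ≤ k.factorial := (Nat.factorial_le hk : (2).factorial ≤ k.factorial)
  have hC := C_pos hq2
  obtain ⟨N, hN⟩ := defect_bound hT hmix hq2 0 (hA i)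
  by_contra hcon
  push Not at hcon
  obtain ⟨t, htP, ht⟩ := exists_ladder (P := fun t => μ.real (Dv T A c t) <
    1 / (8 * k.factorial * C k.factorial) * (μ.real (A i) * (1 - μ.real (A i)))) hcon N k
  let e : Fin k.factorial ≃ Equiv.Perm (Fin k) :=
    (Fintype.equivFinOfCardEq (by rw [Fintype.card_perm, Fintype.card_fin])).symm
  have hsep := hN (fun a => ptime t (e a)) fun a b hab => ptime_sep ht (e.injective.ne hab)
  have hzero : (k.factorial : ZMod 2) = 0 :=
    (ZMod.natCast_eq_zero_iff_even).2 (even_iff_two_dvd.2 (Nat.dvd_factorial (by norm_num) hk))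
  have hsub : D T (A i) 0 (fun a => ptime t (e a)) ⊆
      ⋃ σ : Equiv.Perm (Fin k), P T (cofTime t i σ) (Dv T A c (t (σ.symm i))) := by
    intro x hx
    by_contra hno
    simp only [mem_iUnion, not_exists] at hno
    have h0 : ∀ σ : Equiv.Perm (Fin k),
        c + parv T A (t (σ.symm i)) (S T (cofTime t i σ) x) = 0 := by
      intro σ
      have h' : c + parv T A (t (σ.symm i)) (S T (cofTime t i σ) x) ≠ 1 := hno σ
      revert h'
      generalize c + parv T A (t (σ.symm i)) (S T (cofTime t i σ) x) = z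
      revert z; decide
    have hs := Finset.sum_eq_zero (s := Finset.univ) fun σ _ => h0 σ
    rw [Finset.sum_add_distrib, Finset.sum_const, Finset.card_univ, Fintype.card_perm,
      Fintype.card_fin, nsmul_eq_mul, hzero, zero_mul, zero_add, cofactor,
      ← e.sum_comp] at hs
    have hx' : (0 : ZMod 2) + par T (fun a => ptime t (e a)) (A i) x = 1 := hx
    rw [zero_add, par, hs] at hx'
    exact zero_ne_one hx'
  have hle := hsep.trans ((measureReal_mono hsub).trans (measureReal_iUnion_fintype_le _))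
  have hlt : ∑ σ : Equiv.Perm (Fin k), μ.real (P T (cofTime t i σ) (Dv T A c (t (σ.symm i)))) <
      ∑ _σ : Equiv.Perm (Fin k),
        1 / (8 * k.factorial * C k.factorial) * (μ.real (A i) * (1 - μ.real (A i))) := by
    refine Finset.sum_lt_sum_of_nonempty Finset.univ_nonempty fun σ _ => ?_
    rw [real_P hT _ (measurableSet_Dv hT hA c _)]
    exact htP _
  rw [Finset.sum_const, Finset.card_univ, Fintype.card_perm, Fintype.card_fin, nsmul_eq_mul] at hlt
  refine lt_irrefl _ (hle.trans_lt (hlt.trans_eq ?_))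
  field_simp

theorem prod_sign_multi (A : Fin k → Set Ω) [∀ i, DecidablePred (· ∈ A i)] (t : Fin k → ℤ)
    (x : Ω) : (∏ i, (if S T (t i) x ∈ A i then (-1:ℝ) else 1)) =
      1 - 2 * (Dv T A 0 t).indicator (fun _ => (1:ℝ)) x := by
  have key : ∀ s : Finset (Fin k), (∏ i ∈ s, (if S T (t i) x ∈ A i then (-1:ℝ) else 1)) =
      if (∑ i ∈ s, (A i).indicator (fun _ => (1 : ZMod 2)) (S T (t i) x)) = 1 then -1 else 1 := by
    intro s
    induction s using Finset.induction_on with
    | empty => simp
    | @insert a s ha ih =>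
      rw [Finset.prod_insert ha, Finset.sum_insert ha, ih]
      by_cases h : S T (t a) x ∈ A a
      · rw [if_pos h, Set.indicator_of_mem h]
        have e0 : ∀ z : ZMod 2, (1 + z = 1 ↔ ¬ z = 1) := by decide
        simp only [e0]
        split_ifs <;> norm_num
      · rw [if_neg h, Set.indicator_of_notMem h, zero_add, one_mul]
  rw [key Finset.univ]
  by_cases h : x ∈ Dv T A 0 t
  · rw [Set.indicator_of_mem h, if_pos (by simpa [Dv, parv] using h)]; norm_num
  · rw [Set.indicator_of_notMem h, if_neg (by simpa [Dv, parv] using h)]; norm_num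

end

end Vale.P102
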