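import Vale.Agent.P102.Basic

/-!
P102: an exact parity relation forces a periodic process, hence a trivial set.
-/

open MeasureTheory Filter Set Topology
open scoped symmDiff

namespace Vale.P102

noncomputable section

theorem iterate_card_add {α : Type*} [Fintype α] (F : α → α) (w : α) :
    F^[Fintype.card α + (Fintype.card α).factorial] w = F^[Fintype.card α] w := by
  obtain ⟨i, j, hij, he⟩ := Fintype.exists_ne_map_eq_of_card_lt
    (fun n : Fin (Fintype.card α + 1) => F^[(n : ℕ)] w) (by simp)
  wlog hlt : (i : ℕ) < j generalizing i j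
  · exact this j i hij.symm he.symm (lt_of_le_of_ne (not_lt.1 hlt) fun e => hij (Fin.ext e).symm)
  set p := (j : ℕ) - i
  have hper : Function.IsPeriodicPt F p (F^[(i:ℕ)] w) := by
    show F^[p] (F^[(i:ℕ)] w) = F^[(i:ℕ)] w
    rw [← Function.iterate_add_apply, Nat.sub_add_cancel hlt.le]
    exact he.symm
  have hM := (hper.apply_iterate (Fintype.card α - i)).trans_dvd
    (Nat.dvd_factorial (Nat.sub_pos_of_lt hlt) (show p ≤ Fintype.card α by omega))
  rw [← Function.iterate_add_apply, Nat.sub_add_cancel (by omega)] at hM
  rw [add_comm, Function.iterate_add_apply]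
  exact hM

variable {Ω : Type*} [MeasurableSpace Ω] {μ : Measure Ω} {T : Ω ≃ᵐ Ω} {k : ℕ}

theorem trivial_of_exact [IsProbabilityMeasure μ] (hT : MeasurePreserving T μ μ)
    (hmix : Mix μ T) (hk : 2 ≤ k) {B : Set Ω} (hB : MeasurableSet B) (c : ZMod 2)
    {t : Fin k → ℤ} (ht : Function.Injective t) (h0 : μ.real (D T B c t) = 0) :
    μ.real B * (1 - μ.real B) = 0 := by
  classical
  haveI : Nonempty (Fin k) := ⟨⟨0, by omega⟩⟩
  obtain ⟨i₀, hi₀⟩ := Finite.exists_min t
  obtain ⟨i₁, hi₁⟩ := Finite.exists_max t
  have hlt : t i₀ < t i₁ := by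
    refine lt_of_le_of_ne (hi₀ i₁) fun e => ?_
    have hc : ∀ i, t i = t i₀ := fun i => le_antisymm ((hi₁ i).trans_eq e.symm) (hi₀ i)
    have h := ht ((hc ⟨0, by omega⟩).trans (hc ⟨1, by omega⟩).symm)
    simp at h
  set d := (t i₁ - t i₀).toNat with hd
  set F : (Fin d → ZMod 2) → Fin d → ZMod 2 := fun w r =>
    if h : (r : ℕ) + 1 < d then w ⟨r + 1, h⟩
    else c + ∑ i ∈ Finset.univ.erase i₁,
      if h : (t i - t i₀).toNat < d then w ⟨(t i - t i₀).toNat, h⟩ else 0 with hF
  set M := Fintype.card (Fin d → ZMod 2)
  set N := M.factorial with hN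
  have hnull : ∀ a : ℤ, ∀ᵐ x ∂μ, S T a x ∉ D T B c t := by
    intro a
    have h' : μ (P T a (D T B c t)) = 0 := by
      rw [P, (mp_S hT a).measure_preimage (measurableSet_D hT hB c t).nullMeasurableSet]
      exact (measureReal_eq_zero_iff).1 h0
    exact measure_eq_zero_iff_ae_notMem.1 h'
  have hae : ∀ᵐ x ∂μ, ∀ n : ℕ,
      B.indicator (fun _ => (1 : ZMod 2)) (S T ((N:ℤ) * n) x) =
        B.indicator (fun _ => (1 : ZMod 2)) x := by
    filter_upwards [ae_all_iff.2 hnull] with x hx
    set y : ℤ → ZMod 2 := fun a => B.indicator (fun _ => (1 : ZMod 2)) (S T a x) with hy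
    have hrel : ∀ a, c + ∑ i, y (t i + a) = 0 := fun a => by
      have h := indicator_D (T := T) B c t (S T a x)
      rw [Set.indicator_of_notMem (hx a)] at h
      simpa [par, hy, ← S_add] using h.symm
    set W : ℤ → Fin d → ZMod 2 := fun a r => y (a + t i₀ + (r : ℕ)) with hW
    have hstep : ∀ a, W (a + 1) = F (W a) := by
      intro a
      funext r
      simp only [hF]
      by_cases hr : (r : ℕ) + 1 < d
      · rw [dif_pos hr]
        simp only [hW]
        congr 1
        push_cast
        ring
      · rw [dif_neg hr]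
        have e : y (a + 1 + t i₀ + (r : ℕ)) = y (t i₁ + a) := by
          congr 1
          have := r.isLt
          omega
        simp only [hW]
        rw [e]
        have h := hrel a
        rw [← Finset.add_sum_erase _ _ (Finset.mem_univ i₁)] at h
        have hs : (∑ i ∈ Finset.univ.erase i₁,
            if h : (t i - t i₀).toNat < d then y (a + t i₀ + ((t i - t i₀).toNat : ℤ)) else 0)
            = ∑ i ∈ Finset.univ.erase i₁, y (t i + a) := by
          refine Finset.sum_congr rfl fun i hi => ?_
          have h1 : t i ≠ t i₁ := fun e => Finset.ne_of_mem_erase hi (ht e)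
          have h2 := hi₀ i
          have h3 := hi₁ i
          rw [dif_pos (by omega)]
          congr 1
          omega
        rw [hs]
        have z2 : ∀ u v w : ZMod 2, w + (u + v) = 0 → u = w + v := by decide
        exact z2 _ _ _ h
    have hiter : ∀ (n : ℕ) a, W (a + n) = F^[n] (W a) := by
      intro n
      induction n with
      | zero => simp
      | succ n ih =>
        intro a
        rw [Function.iterate_succ_apply', ← ih, ← hstep]
        congr 1; push_cast; ring
    have hper : ∀ a, y (a + N) = y a := by
      intro a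
      have h1 : W (a - t i₀ + N) = W (a - t i₀) := by
        have e1 := hiter (M + N) (a - t i₀ - M)
        have e2 := hiter M (a - t i₀ - M)
        rw [hN, iterate_card_add, ← e2] at e1
        convert e1 using 2 <;> (push_cast; ring)
      have h2 := congrFun h1 ⟨0, by omega⟩
      simp only [hW] at h2
      convert h2 using 2 <;> (push_cast; ring)
    intro n
    have : y ((N:ℤ) * n) = y 0 := by
      induction n with
      | zero => simp
      | succ n ih =>
        rw [← ih, ← hper ((N:ℤ) * n)]
        congr 1
    simpa [hy, S_zero] using this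
  have hconst : ∀ n : ℕ, μ (B ∩ P T ((N:ℤ) * n) B) = μ B := fun n => by
    refine measure_congr ?_
    filter_upwards [hae] with x hx
    have h := hx n
    refine propext ⟨fun h' => h'.1, fun hxB => ⟨hxB, ?_⟩⟩
    rw [Set.indicator_of_mem (show x ∈ B from hxB)] at h
    show S T ((N:ℤ) * n) x ∈ B
    refine Set.mem_of_indicator_ne_zero (f := fun _ => (1 : ZMod 2)) ?_
    rw [h]
    exact one_ne_zero
  have hinj : Function.Injective fun n : ℕ => (N:ℤ) * n := fun a b h => by
    simpa [hN, Nat.factorial_ne_zero] using h
  have hlim := (hmix B B hB hB).comp (Nat.cofinite_eq_atTop ▸ hinj.tendsto_cofinite)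
  have he : μ B = μ B * μ B := tendsto_nhds_unique
    (tendsto_const_nhds.congr fun n => (hconst n).symm) hlim
  have := congrArg ENNReal.toReal he
  rw [ENNReal.toReal_mul] at this
  simp only [measureReal_def]
  linear_combination this

end

end Vale.P102
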