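import Vale.Agent.P102.Weak

/-!
P102: the improvement step. An almost exact parity relation becomes quadratically better
after changing the set on a small set.
-/

open MeasureTheory Filter Set Topology
open scoped symmDiff

namespace Vale.P102

noncomputable section

variable {Ω : Type*} [MeasurableSpace Ω] {μ : Measure Ω} {T : Ω ≃ᵐ Ω} {k : ℕ}

/-- Widely spread times along which the defect tends to `L`. -/
def Near (μ : Measure Ω) (T : Ω ≃ᵐ Ω) (k : ℕ) (A : Set Ω) (c : ZMod 2) (L : ℝ) : Prop :=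
  ∃ t : ℕ → Fin k → ℤ, Spread t ∧ Tendsto (fun n => μ.real (D T A c (t n))) atTop (𝓝 L)

theorem setIntegral_S (hT : MeasurePreserving T μ μ) (a : ℤ) {E : Set Ω} (hE : MeasurableSet E)
    {h : Ω → ℝ} (hh : Measurable h) :
    ∫ x in E, h (S T a x) ∂μ = ∫ x in P T (-a) E, h x ∂μ := by
  conv_rhs => rw [← (mp_S hT a).map_eq]
  rw [setIntegral_map (measurableSet_P hT _ hE) hh.aestronglyMeasurable
    (mp_S hT a).measurable.aemeasurable]
  congr 2
  ext x
  simp [P, ← S_add, S_zero]

theorem integral_abs_eq {F : Ω → ℝ} (hF : Integrable F μ) (hFm : Measurable F) :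
    ∫ x, |F x| ∂μ = (∫ x in {x | 0 ≤ F x}, F x ∂μ) - ∫ x in {x | 0 ≤ F x}ᶜ, F x ∂μ := by
  have hE : MeasurableSet {x | 0 ≤ F x} := measurableSet_le measurable_const hFm
  rw [← integral_add_compl hE hF.abs, setIntegral_congr_fun hE fun x hx => abs_of_nonneg hx,
    setIntegral_congr_fun hE.compl fun x hx => abs_of_neg (lt_of_not_ge (by exact hx : ¬ (0 ≤ F x))), integral_neg]
  ring

theorem sub_le_integral_abs {F : Ω → ℝ} (hF : Integrable F μ) {E : Set Ω}
    (hE : MeasurableSet E) : (∫ x in E, F x ∂μ) - ∫ x in Eᶜ, F x ∂μ ≤ ∫ x, |F x| ∂μ := by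
  rw [← integral_add_compl hE hF.abs, sub_eq_add_neg, ← integral_neg]
  exact add_le_add (integral_mono hF.integrableOn hF.abs.integrableOn fun x => le_abs_self _)
    (integral_mono hF.neg.integrableOn hF.abs.integrableOn fun x => neg_le_abs _)

theorem integrable_bdd [IsFiniteMeasure μ] {h : Ω → ℝ} (hh : Measurable h) (h0 : ∀ x, 0 ≤ h x)
    (h1 : ∀ x, h x ≤ 1) : Integrable h μ :=
  Integrable.of_mem_Icc 0 1 hh.aemeasurable (ae_of_all _ fun x => ⟨h0 x, h1 x⟩)

section

variable [IsProbabilityMeasure μ] (hT : MeasurePreserving T μ μ) (hmix : Mix μ T) {A : Set Ω}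
  (hA : MeasurableSet A) (c : ZMod 2) {t : ℕ → Fin k → ℤ} (ht : Spread t) {L : ℝ}
  (hL : 0 < L) (hL1 : L ≤ 1) (ε : ∀ n, |μ.real (D T A c (t n)) - L| ≤ L ^ 2)

include hT hA hmix ht hL hL1 ε in
theorem cover_step (j₀ : Fin k) (n : ℕ) :
    ∀ᶠ m in atTop,
      k * μ.real (role T A c (t m) j₀ ∩ Z T A c (t 0)) ≤ L + 30 * (k:ℝ) ^ 5 * L ^ 2 ∧
      ∫ x, |cnt T (t n) (role T A c (t m) j₀ ∩ Z T A c (t 0)) x - ind (D T A c (t n)) x| ∂μ
        ≤ 120 * (k:ℝ) ^ 5 * L ^ 2 := by
  classical
  have hK : (1:ℝ) ≤ k := by exact_mod_cast (Fin.pos j₀)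
  have hL2 : L ^ 2 ≤ L := by nlinarith
  have he : ∀ i, μ.real (D T A c (t i)) ≤ 2 * L := fun i => by linarith [(abs_le.1 (ε i)).2]
  set Z' := Z T A c (t 0) ∪ Z T A c (t n) with hZ'
  have hZm : MeasurableSet Z' := (measurableSet_Z hT hA c _).union (measurableSet_Z hT hA c _)
  have hZle : μ.real Z' ≤ 4 * k * L := by
    refine (measureReal_union_le _ _).trans ?_
    have h1 := (real_Z_le (μ := μ) hT hA c (t 0)).trans (mul_le_mul_of_nonneg_left (he 0) (by positivity))
    have h2 := (real_Z_le (μ := μ) hT hA c (t n)).trans (mul_le_mul_of_nonneg_left (he n) (by positivity))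
    linarith
  have hg : (0:ℝ) < L ^ 2 := by positivity
  filter_upwards [eventually_all.2 fun j => pairs_eventually_le hT hmix ht j hZm hg,
    eventually_all.2 fun j => pairs_eventually_le hT hmix ht j (measurableSet_D hT hA c (t n)) hg,
    eventually_all.2 fun j => pairs_eventually_le hT hmix ht j (measurableSet_D hT hA c (t 0)) hg]
    with m hm hn h0
  set u := t m with hu
  set a : Fin k → ℝ := fun j => μ.real (role T A c u j ∩ Z') with ha
  set N : ℝ := (k:ℝ) ^ 5 * L ^ 2 with hN
  have hp : ∀ p : ℕ, p ≤ 5 → (k:ℝ) ^ p * L ^ 2 ≤ N := fun p hp =>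
    mul_le_mul_of_nonneg_right (pow_le_pow_right₀ hK hp) (sq_nonneg L)
  have p0 := hp 0 (by norm_num)
  have p1 := hp 1 (by norm_num)
  have p2 := hp 2 (by norm_num)
  have p4 := hp 4 (by norm_num)
  have hN0 : 0 ≤ N := by positivity
  simp only [pow_zero, one_mul, pow_one] at p0 p1
  have hpb : ∀ i, (∀ j, pairs μ T u j (D T A c (t i)) ≤ k * μ.real (D T A c (t i)) ^ 2 + L ^ 2) →
      ∀ j, pairs μ T u j (D T A c (t i)) ≤ 5 * N := fun i h j => by
    have := mul_le_mul_of_nonneg_left (pow_le_pow_left₀ measureReal_nonneg (he i) 2)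
      (by positivity : (0:ℝ) ≤ k)
    nlinarith [h j]
  have bn := hpb n hn
  have b0 := hpb 0 h0
  have hlow : ∀ i, (∀ j, pairs μ T u j (D T A c (t i)) ≤ 5 * N) → ∀ j,
      L - 11 * N ≤ k * μ.real (role T A c u j ∩ Z T A c (t i)) := fun i h j => by
    have h' := real_D_le (μ := μ) hT hA c (t i) u j
    linarith [h j, (abs_le.1 (ε i)).1]
  have hsum : ∑ j, a j ≤ L + L ^ 2 + ((k:ℝ) * (k * (4 * k * L) ^ 2 + L ^ 2)) := by
    refine (sum_role_le hT hA c u hZm).trans (add_le_add ?_ ?_)
    · linarith [(abs_le.1 (ε m)).2]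
    · refine (Finset.sum_le_sum (g := fun _ => (k:ℝ) * (4 * k * L) ^ 2 + L ^ 2) fun j _ =>
        (hm j).trans ?_).trans_eq (by simp [mul_add])
      gcongr
  have hmono : ∀ j {i}, (i = 0 ∨ i = n) → k * μ.real (role T A c u j ∩ Z T A c (t i)) ≤ k * a j := by
    intro j i hi
    refine mul_le_mul_of_nonneg_left (measureReal_mono (inter_subset_inter_right _ ?_)) (by positivity)
    rcases hi with rfl | rfl
    · exact subset_union_left
    · exact subset_union_right
  have hup : k * a j₀ ≤ L + 30 * N := by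
    have hs := Finset.add_sum_erase Finset.univ (fun j => (k:ℝ) * a j) (Finset.mem_univ j₀)
    rw [← Finset.mul_sum Finset.univ a] at hs
    have := mul_le_mul_of_nonneg_left hsum (by linarith : (0:ℝ) ≤ k)
    have hsharp : ∀ j, L - (10 * k + 3) * L ^ 2 ≤ k * a j := fun j => by
      have h' := real_D_le (μ := μ) hT hA c (t n) u j
      have h2 := mul_le_mul_of_nonneg_left (pow_le_pow_left₀ measureReal_nonneg (he n) 2)
        (by positivity : (0:ℝ) ≤ k)
      nlinarith [hn j, (abs_le.1 (ε n)).1, hmono j (Or.inr rfl)]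
    have hrest' : ((k:ℝ) - 1) * (L - (10 * k + 3) * L ^ 2) ≤ ∑ j ∈ Finset.univ.erase j₀, k * a j := by
      refine le_trans (le_of_eq ?_) (Finset.card_nsmul_le_sum _ _ _ fun j _ => hsharp j)
      rw [Finset.card_erase_of_mem (Finset.mem_univ _), Finset.card_univ, Fintype.card_fin,
        nsmul_eq_mul, Nat.cast_sub (Fin.pos j₀), Nat.cast_one]
    have q1 : (k:ℝ) * (L + L ^ 2 + (k * (k * (4 * k * L) ^ 2 + L ^ 2)))
        - ((k:ℝ) - 1) * (L - (10 * k + 3) * L ^ 2)
        = L + 16 * ((k:ℝ) ^ 5 * L ^ 2) + 11 * ((k:ℝ) ^ 2 * L ^ 2) - 6 * ((k:ℝ) * L ^ 2) - 3 * L ^ 2 := by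
      ring
    have q0 : (0:ℝ) ≤ (k:ℝ) * L ^ 2 := by positivity
    linarith
  refine ⟨(hmono j₀ (Or.inl rfl)).trans (by linarith), ?_⟩
  set V := role T A c u j₀ ∩ Z T A c (t n) with hV
  set Q := role T A c u j₀ ∩ Z T A c (t 0) with hQ
  have hVm : MeasurableSet V := (measurableSet_role hT hA c u j₀).inter (measurableSet_Z hT hA c _)
  have hQm : MeasurableSet Q := (measurableSet_role hT hA c u j₀).inter (measurableSet_Z hT hA c _)
  have hR : MeasurableSet (role T A c u j₀ ∩ Z') := (measurableSet_role hT hA c u j₀).inter hZm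
  have hpt : ∀ x, |cnt T (t n) Q x - ind (D T A c (t n)) x| ≤
      |cnt T (t n) V x - ind (D T A c (t n)) x| +
        (2 * cnt T (t n) (role T A c u j₀ ∩ Z') x - cnt T (t n) V x - cnt T (t n) Q x) := by
    intro x
    have key : ∀ y, |ind Q y - ind V y| ≤
        2 * ind (role T A c u j₀ ∩ Z') y - ind V y - ind Q y := by
      intro y
      by_cases h1 : y ∈ role T A c u j₀ <;> by_cases h2 : y ∈ Z T A c (t 0) <;>
        by_cases h3 : y ∈ Z T A c (t n) <;> simp [ind, hQ, hV, hZ', h1, h2, h3] <;> norm_num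
    have h1 : |cnt T (t n) Q x - cnt T (t n) V x| ≤
        2 * cnt T (t n) (role T A c u j₀ ∩ Z') x - cnt T (t n) V x - cnt T (t n) Q x := by
      simp only [cnt_eq, ← Finset.sum_sub_distrib, Finset.mul_sum]
      exact (Finset.abs_sum_le_sum_abs _ _).trans (Finset.sum_le_sum fun i _ => key _)
    linarith [abs_sub_le (cnt T (t n) Q x) (cnt T (t n) V x) (ind (D T A c (t n)) x)]
  have i1 : Integrable (fun x => |cnt T (t n) V x - ind (D T A c (t n)) x|) μ :=
    ((integrable_cnt (μ := μ) hT (t n) hVm).sub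
      (integrable_ind (measurableSet_D hT hA c (t n)))).abs
  have i2 : Integrable (fun x => 2 * cnt T (t n) (role T A c u j₀ ∩ Z') x - cnt T (t n) V x
      - cnt T (t n) Q x) μ :=
    (((integrable_cnt hT _ hR).const_mul 2).sub (integrable_cnt hT _ hVm)).sub
      (integrable_cnt hT _ hQm)
  refine (integral_mono ((integrable_cnt hT (t n) hQm).sub
    (integrable_ind (measurableSet_D hT hA c (t n)))).abs (i1.add i2) hpt).trans ?_
  simp only [Pi.add_apply, Pi.sub_apply]
  rw [integral_add i1 i2]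
  have e2 : ∫ x, (2 * cnt T (t n) (role T A c u j₀ ∩ Z') x - cnt T (t n) V x
      - cnt T (t n) Q x) ∂μ = 2 * (k * a j₀) - k * μ.real V - k * μ.real Q := by
    have j1 : Integrable (fun x => 2 * cnt T (t n) (role T A c u j₀ ∩ Z') x) μ :=
      (integrable_cnt hT _ hR).const_mul 2
    have j2 : Integrable (fun x => 2 * cnt T (t n) (role T A c u j₀ ∩ Z') x - cnt T (t n) V x) μ :=
      j1.sub (integrable_cnt hT _ hVm)
    rw [integral_sub j2 (integrable_cnt hT _ hQm), integral_sub j1 (integrable_cnt hT _ hVm), integral_const_mul, integral_cnt hT _ hR, integral_cnt hT _ hVm,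
      integral_cnt hT _ hQm]
  rw [e2]
  have h1 := abs_cnt_sub_le (μ := μ) hT hA c (t n) u j₀
  linarith [bn j₀, hlow n bn j₀, hlow 0 b0 j₀, hmono j₀ (Or.inr rfl : n = 0 ∨ n = n),
    (abs_le.1 (ε n)).1]

include hT hA hmix ht hL hL1 ε in
/-- Quadratic improvement. -/
theorem improve (hk : 2 ≤ k) (hsmall : 30 * (k:ℝ) ^ 5 * L ≤ 1) :
    ∃ Q, MeasurableSet Q ∧ μ.real Q ≤ 2 * L ∧
      ∀ᶠ n in atTop, μ.real (D T (A ∆ Q) c (t n)) ≤ 250 * (k:ℝ) ^ 6 * L ^ 2 := by
  classical
  set j₀ : Fin k := ⟨0, by omega⟩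
  have hK : (2:ℝ) ≤ k := by exact_mod_cast hk
  set Z₀ := Z T A c (t 0)
  have hZ₀ : MeasurableSet Z₀ := measurableSet_Z hT hA c _
  set Qm : ℕ → Set Ω := fun m => role T A c (t m) j₀ ∩ Z₀
  have hQm : ∀ m, MeasurableSet (Qm m) := fun m => (measurableSet_role hT hA c _ _).inter hZ₀
  obtain ⟨h, hm, h0, hle, hlim⟩ := exists_weak_limit (μ := μ) (hyperfilter ℕ) hQm hZ₀
    fun m => inter_subset_right
  have h1 : ∀ x, h x ≤ 1 := fun x => (hle x).trans (ind_le_one _ _)
  have hi : Integrable h μ := integrable_bdd hm h0 h1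
  have hi' : ∀ a, Integrable (fun x => h (S T a x)) μ := fun a =>
    integrable_bdd (hm.comp (mp_S hT a).measurable) (fun x => h0 _) (fun x => h1 _)
  have htot : k * ∫ x, h x ∂μ ≤ L + 30 * (k:ℝ) ^ 5 * L ^ 2 := by
    have hh := (hlim univ MeasurableSet.univ).const_mul (k:ℝ)
    simp only [inter_univ, setIntegral_univ] at hh
    exact le_of_tendsto hh (Nat.hyperfilter_le_atTop
      ((cover_step hT hmix hA c ht hL hL1 ε j₀ 0).mono fun m hm => hm.1))
  -- the limit constraint
  have hG : ∀ n, ∫ x, |(∑ i, h (S T (t n i) x)) - ind (D T A c (t n)) x| ∂μ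
      ≤ 120 * (k:ℝ) ^ 5 * L ^ 2 := by
    intro n
    set F := fun x => (∑ i, h (S T (t n i) x)) - ind (D T A c (t n)) x
    have hDm := measurableSet_D (μ := μ) hT hA c (t n)
    have hFi : Integrable F μ := (integrable_finsetSum _ fun i _ => hi' _).sub (integrable_ind hDm)
    have hFm : Measurable F := (Finset.measurable_sum _ fun i _ =>
      hm.comp (mp_S hT _).measurable).sub (measurable_const.indicator hDm)
    rw [integral_abs_eq hFi hFm]
    set E := {x | 0 ≤ F x}
    have hE : MeasurableSet E := measurableSet_le measurable_const hFm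
    have conv : ∀ G, MeasurableSet G → Tendsto
        (fun m => ∫ x in G, (cnt T (t n) (Qm m) x - ind (D T A c (t n)) x) ∂μ)
        (hyperfilter ℕ) (𝓝 (∫ x in G, F x ∂μ)) := by
      intro G hG
      simp only [F, cnt_eq]
      rw [integral_sub (integrable_finsetSum _ fun i _ => (hi' _)).integrableOn
        (integrable_ind hDm).integrableOn, integral_finsetSum _ fun i _ => (hi' _).integrableOn]
      have e : ∀ m, ∫ x in G, ((∑ i, ind (Qm m) (S T (t n i) x)) - ind (D T A c (t n)) x) ∂μ =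
          (∑ i, μ.real (Qm m ∩ P T (-(t n i)) G)) - ∫ x in G, ind (D T A c (t n)) x ∂μ := by
        intro m
        rw [integral_sub (integrable_finsetSum _ fun i _ =>
            integrable_ind_S hT _ (hQm m)).integrableOn (integrable_ind hDm).integrableOn,
          integral_finsetSum _ fun i _ => (integrable_ind_S hT _ (hQm m)).integrableOn]
        congr 1
        refine Finset.sum_congr rfl fun i _ => ?_
        rw [setIntegral_S hT _ hG (h := ind (Qm m)) (measurable_const.indicator (hQm m))]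
        simp [ind, setIntegral_indicator (hQm m), inter_comm]
      simp only [e]
      refine (tendsto_finsetSum _ fun i _ => ?_).sub_const _
      rw [setIntegral_S hT _ hG hm]
      exact hlim _ (measurableSet_P hT _ hG)
    refine le_of_tendsto ((conv E hE).sub (conv Eᶜ hE.compl)) (Nat.hyperfilter_le_atTop
      ((cover_step hT hmix hA c ht hL hL1 ε j₀ n).mono fun m hm => ?_))
    exact (sub_le_integral_abs ((integrable_cnt hT _ (hQm m)).sub (integrable_ind hDm)) hE).trans hm.2
  -- rounding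
  set φ := fun x => min (h x) (1 - h x) with hφdef
  have hφm : Measurable φ := hm.min (measurable_const.sub hm)
  have hφ0 : ∀ x, 0 ≤ φ x := fun x => le_min (h0 x) (sub_nonneg.2 (h1 x))
  have hφi : Integrable φ μ :=
    integrable_bdd hφm hφ0 fun x => (min_le_left _ _).trans (h1 x)
  have hφ : ∫ x, φ x ∂μ ≤ 125 * (k:ℝ) ^ 5 * L ^ 2 := by
    obtain ⟨n, hn⟩ := (pairs_eventually_le hT hmix ht j₀ hZ₀ (pow_pos hL 2)).exists
    have hDm := measurableSet_D (μ := μ) hT hA c (t n)
    have hH : ∀ l, MeasurableSet (P T (t n j₀) Z₀ ∩ P T (t n l) Z₀) := fun l =>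
      (measurableSet_P hT _ hZ₀).inter (measurableSet_P hT _ hZ₀)
    have hpt : ∀ x, φ (S T (t n j₀) x) ≤ |(∑ i, h (S T (t n i) x)) - ind (D T A c (t n)) x|
        + ∑ l ∈ Finset.univ.erase j₀, ind (P T (t n j₀) Z₀ ∩ P T (t n l) Z₀) x := by
      intro x
      by_cases hx : S T (t n j₀) x ∈ Z₀
      · have hb : (∑ l ∈ Finset.univ.erase j₀, h (S T (t n l) x)) ≤
            ∑ l ∈ Finset.univ.erase j₀, ind (P T (t n j₀) Z₀ ∩ P T (t n l) Z₀) x :=
          Finset.sum_le_sum fun l _ => (hle _).trans (by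
            by_cases hl : S T (t n l) x ∈ Z₀ <;> simp [ind, P, hx, hl])
        have hb0 : 0 ≤ ∑ l ∈ Finset.univ.erase j₀, h (S T (t n l) x) :=
          Finset.sum_nonneg fun l _ => h0 _
        rw [← Finset.add_sum_erase _ (fun i => h (S T (t n i) x)) (Finset.mem_univ j₀)]
        by_cases hD : x ∈ D T A c (t n)
        · simp only [ind, Set.indicator_of_mem hD]
          refine (min_le_right _ _).trans ?_
          simp only [ind] at hb
          linarith [neg_abs_le (h (S T (t n j₀) x)
            + (∑ l ∈ Finset.univ.erase j₀, h (S T (t n l) x)) - 1)]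
        · simp only [ind, Set.indicator_of_notMem hD, sub_zero]
          refine (min_le_left _ _).trans ?_
          simp only [ind] at hb
          linarith [le_abs_self (h (S T (t n j₀) x)
            + (∑ l ∈ Finset.univ.erase j₀, h (S T (t n l) x)))]
      · have : φ (S T (t n j₀) x) = 0 := by
          have hz : h (S T (t n j₀) x) = 0 :=
            le_antisymm ((hle _).trans (by simp [ind, hx])) (h0 _)
          simp [φ, hz]
        rw [this]
        exact add_nonneg (abs_nonneg _) (Finset.sum_nonneg fun l _ => ind_nonneg _ _)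
    have j1 : Integrable (fun x => |(∑ i, h (S T (t n i) x)) - ind (D T A c (t n)) x|) μ :=
      ((integrable_finsetSum Finset.univ fun i _ => hi' (t n i)).sub (integrable_ind hDm)).abs
    have j2 : Integrable (fun x => ∑ l ∈ Finset.univ.erase j₀,
        ind (P T (t n j₀) Z₀ ∩ P T (t n l) Z₀) x) μ :=
      integrable_finsetSum _ fun l _ => integrable_ind (hH l)
    have hint := integral_mono (μ := μ) (integrable_bdd (hφm.comp (mp_S hT _).measurable)
      (fun x => hφ0 _) fun x => (min_le_left _ _).trans (h1 _)) (j1.add j2) hpt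
    simp only [Pi.add_apply, Pi.sub_apply, Function.comp_apply] at hint
    rw [integral_add j1 j2, integral_finsetSum _ fun l _ => integrable_ind (hH l),
      Finset.sum_congr rfl fun l _ => integral_ind (hH l)] at hint
    have e : ∫ x, φ (S T (t n j₀) x) ∂μ = ∫ x, φ x ∂μ := by
      have := setIntegral_S (μ := μ) hT (t n j₀) MeasurableSet.univ hφm
      simpa [P] using this
    rw [e] at hint
    have hZ2 : μ.real Z₀ ≤ 2 * k * L := by
      refine (real_Z_le hT hA c _).trans ?_
      have := mul_le_mul_of_nonneg_left (show μ.real (D T A c (t 0)) ≤ 2 * L by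
        nlinarith [(abs_le.1 (ε 0)).2]) (by positivity : (0:ℝ) ≤ k)
      linarith
    have hZ3 := mul_le_mul_of_nonneg_left (pow_le_pow_left₀ measureReal_nonneg hZ2 2)
      (by positivity : (0:ℝ) ≤ k)
    simp only [pairs] at hn
    have p3 : (k:ℝ) ^ 3 * L ^ 2 ≤ (k:ℝ) ^ 5 * L ^ 2 :=
      mul_le_mul_of_nonneg_right (pow_le_pow_right₀ (by linarith) (by norm_num)) (sq_nonneg L)
    have p0 : L ^ 2 ≤ (k:ℝ) ^ 5 * L ^ 2 :=
      le_mul_of_one_le_left (sq_nonneg L) (one_le_pow₀ (by linarith))
    nlinarith [hG n]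
  set Q := {x | 1 / 2 < h x}
  have hQ : MeasurableSet Q := measurableSet_lt measurable_const hm
  refine ⟨Q, hQ, ?_, Eventually.of_forall fun n => ?_⟩
  · have hq : μ.real Q ≤ 2 * ∫ x, h x ∂μ := by
      rw [← integral_const_mul, ← integral_ind hQ]
      refine integral_mono (integrable_ind hQ) (hi.const_mul 2) fun x => ?_
      by_cases hx : x ∈ Q
      · simp only [ind, Set.indicator_of_mem hx]; linarith [show (1:ℝ)/2 < h x from hx]
      · simp only [ind, Set.indicator_of_notMem hx]; linarith [h0 x]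
    have hint0 : 0 ≤ ∫ x, h x ∂μ := integral_nonneg h0
    nlinarith
  · have hDm := measurableSet_D (μ := μ) hT hA c (t n)
    have hDm' := measurableSet_D (μ := μ) hT (hA.symmDiff hQ) c (t n)
    have j1 : Integrable (fun x => |(∑ i, h (S T (t n i) x)) - ind (D T A c (t n)) x|) μ :=
      ((integrable_finsetSum Finset.univ fun i _ => hi' (t n i)).sub (integrable_ind hDm)).abs
    have hi2 : ∀ i, Integrable (fun x => φ (S T (t n i) x)) μ := fun i =>
      integrable_bdd (hφm.comp (mp_S hT _).measurable) (fun x => hφ0 _)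
        fun x => (min_le_left _ _).trans (h1 _)
    have j2 : Integrable (fun x => ∑ i, φ (S T (t n i) x)) μ :=
      integrable_finsetSum _ fun i _ => hi2 i
    have hpt : ∀ x, ind (D T (A ∆ Q) c (t n)) x ≤
        |(∑ i, h (S T (t n i) x)) - ind (D T A c (t n)) x| + ∑ i, φ (S T (t n i) x) := by
      intro x
      refine (D_symmDiff_le A Q c (t n) x).trans ?_
      refine (abs_sub_le _ (∑ i, h (S T (t n i) x)) _).trans ?_
      rw [add_comm]
      refine add_le_add le_rfl ?_
      rw [cnt_eq, ← Finset.sum_sub_distrib]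
      refine (Finset.abs_sum_le_sum_abs _ _).trans (Finset.sum_le_sum fun i _ => le_of_eq ?_)
      by_cases hy : S T (t n i) x ∈ Q
      · have : 1 / 2 < h (S T (t n i) x) := hy
        simp only [φ, ind, Set.indicator_of_mem hy]
        rw [abs_of_nonneg (by linarith [h1 (S T (t n i) x)]), min_eq_right (by linarith)]
      · have : h (S T (t n i) x) ≤ 1 / 2 := not_lt.1 hy
        simp only [φ, ind, Set.indicator_of_notMem hy]
        rw [zero_sub, abs_neg, abs_of_nonneg (h0 _), min_eq_left (by linarith)]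
    have hint := integral_mono (μ := μ) (integrable_ind hDm') (j1.add j2) hpt
    simp only [Pi.add_apply, Pi.sub_apply, Function.comp_apply] at hint
    rw [integral_ind hDm', integral_add j1 j2, integral_finsetSum _ fun i _ => hi2 i] at hint
    have e : ∀ i, ∫ x, φ (S T (t n i) x) ∂μ = ∫ x, φ x ∂μ := fun i => by
      have := setIntegral_S (μ := μ) hT (t n i) MeasurableSet.univ hφm
      simpa [P] using this
    simp only [e, Finset.sum_const, Finset.card_univ, Fintype.card_fin, nsmul_eq_mul] at hint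
    have p6 : (k:ℝ) ^ 5 * L ^ 2 ≤ (k:ℝ) ^ 6 * L ^ 2 :=
      mul_le_mul_of_nonneg_right (pow_le_pow_right₀ (by linarith) (by norm_num)) (sq_nonneg L)
    nlinarith [hG n, mul_le_mul_of_nonneg_left hφ (by positivity : (0:ℝ) ≤ k)]

end

end

end Vale.P102
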