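import Vale.Agent.P102.Step
import Vale.Agent.P102.Recurrence

/-!
P102: no mixing transformation is close to a parity relation of any order.
-/

open MeasureTheory Filter Set Topology
open scoped symmDiff

namespace Vale.P102

noncomputable section

variable {Ω : Type*} [MeasurableSpace Ω] {μ : Measure Ω} {T : Ω ≃ᵐ Ω} {k : ℕ}

/-- The constant of the improvement step. -/
def C (k : ℕ) : ℝ := 250 * (k:ℝ) ^ 6

theorem C_pos (hk : 2 ≤ k) : 0 < C k := by
  have : (0:ℝ) < k := by exact_mod_cast (by omega : 0 < k)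
  unfold C; positivity

theorem near_step [IsProbabilityMeasure μ] (hT : MeasurePreserving T μ μ) (hmix : Mix μ T)
    (hk : 2 ≤ k) (c : ZMod 2) {A : Set Ω} (hA : MeasurableSet A) {L : ℝ} (hL0 : 0 ≤ L)
    (hL : L ≤ 1 / (2 * C k)) (h : Near μ T k A c L) :
    ∃ A', MeasurableSet A' ∧ μ.real (A ∆ A') ≤ 2 * L ∧
      ∃ L', 0 ≤ L' ∧ L' ≤ L / 2 ∧ Near μ T k A' c L' := by
  rcases hL0.eq_or_lt with rfl | hpos
  · exact ⟨A, hA, by simp, 0, le_rfl, by norm_num, h⟩
  obtain ⟨t, ht, hlim⟩ := h
  have hC := C_pos hk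
  have hK : (2:ℝ) ≤ k := by exact_mod_cast hk
  have hCL : 2 * C k * L ≤ 1 := by
    rw [le_div_iff₀ (by positivity)] at hL; linarith
  have h56 : (k:ℝ) ^ 5 ≤ (k:ℝ) ^ 6 := pow_le_pow_right₀ (by linarith) (by norm_num)
  have hsmall : 30 * (k:ℝ) ^ 5 * L ≤ 1 := by
    unfold C at hCL; nlinarith
  have hL1 : L ≤ 1 := by
    have : (1:ℝ) ≤ (k:ℝ) ^ 5 := one_le_pow₀ (by linarith)
    nlinarith
  obtain ⟨N, hN⟩ := Metric.tendsto_atTop.1 hlim (L ^ 2) (pow_pos hpos 2)
  set t' : ℕ → Fin k → ℤ := t ∘ fun n => n + N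
  have ht' : Spread t' := ht.comp (tendsto_add_atTop_nat N)
  have hε : ∀ n, |μ.real (D T A c (t' n)) - L| ≤ L ^ 2 := fun n =>
    (Real.dist_eq _ _ ▸ hN (n + N) (Nat.le_add_left N n)).le
  obtain ⟨Q, hQ, hQL, hev⟩ := improve hT hmix hA c ht' hpos hL1 hε hk hsmall
  obtain ⟨N', hN'⟩ := eventually_atTop.1 hev
  obtain ⟨L', hL', φ, hφ, hφlim⟩ := isCompact_Icc.tendsto_subseq
    (x := fun n => μ.real (D T (A ∆ Q) c (t' (n + N'))))
    (fun n => show _ ∈ Icc (0:ℝ) (250 * (k:ℝ) ^ 6 * L ^ 2) from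
      ⟨measureReal_nonneg, hN' _ (Nat.le_add_left N' n)⟩)
  refine ⟨A ∆ Q, hA.symmDiff hQ, by simpa using hQL, L', hL'.1, ?_,
    fun n => t' (φ n + N'), ht'.comp (tendsto_atTop_mono (fun n => Nat.le_add_right _ _)
      hφ.tendsto_atTop), hφlim⟩
  have := hL'.2
  unfold C at hCL
  nlinarith

theorem near_zero_trivial [IsProbabilityMeasure μ] (hT : MeasurePreserving T μ μ)
    (hmix : Mix μ T) (hk : 2 ≤ k) (c : ZMod 2) {B : Set Ω} (hB : MeasurableSet B)
    (h : Near μ T k B c 0) : μ.real B * (1 - μ.real B) = 0 := by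
  obtain ⟨t, ht, hlim⟩ := h
  have hev : ∀ᶠ n in atTop, Function.Injective (t n) := by
    have h : ∀ p : Fin k × Fin k, ∀ᶠ n in atTop, p.1 ≠ p.2 → t n p.1 ≠ t n p.2 := by
      intro p
      by_cases hp : p.1 = p.2
      · exact Eventually.of_forall fun n h => absurd hp h
      · filter_upwards [(ht _ _ hp).eventually (eventually_cofinite_ne (0:ℤ))] with n hn _ e
        exact hn (sub_eq_zero.2 e)
    filter_upwards [eventually_all.2 h] with n hn i j e
    by_contra hij
    exact hn (i, j) hij e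
  obtain ⟨n, hn1, hn2⟩ := (hev.and (exists_exact hT hmix (by omega) hB c ht hlim)).exists
  exact trivial_of_exact hT hmix hk hB c hn1 hn2

theorem D_subset (A B : Set Ω) (c : ZMod 2) (t : Fin k → ℤ) :
    D T B c t ⊆ D T A c t ∪ ⋃ i, P T (t i) (A ∆ B) := by
  intro x hx
  by_contra h
  simp only [mem_union, mem_iUnion, not_or, not_exists] at h
  refine h.1 ?_
  have e : par T t A x = par T t B x := Finset.sum_congr rfl fun i _ => by
    have := h.2 i
    simp only [mem_P, Set.mem_symmDiff] at this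
    by_cases ha : S T (t i) x ∈ A <;> by_cases hb : S T (t i) x ∈ B <;> simp_all
  show c + par T t A x = 1
  rw [e]; exact hx

theorem near_small_trivial [IsProbabilityMeasure μ] (hT : MeasurePreserving T μ μ)
    (hmix : Mix μ T) (hk : 2 ≤ k) (c : ZMod 2) {A : Set Ω} (hA : MeasurableSet A) {L : ℝ}
    (hL0 : 0 ≤ L) (hL : L ≤ 1 / (2 * C k)) (h : Near μ T k A c L) :
    μ.real A * (1 - μ.real A) ≤ 4 * L := by
  let St := {p : Set Ω × ℝ // MeasurableSet p.1 ∧ 0 ≤ p.2 ∧ p.2 ≤ 1 / (2 * C k) ∧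
    Near μ T k p.1 c p.2}
  have hnext : ∀ p : St, ∃ q : St,
      μ.real (p.1.1 ∆ q.1.1) ≤ 2 * p.1.2 ∧ q.1.2 ≤ p.1.2 / 2 := by
    intro p
    obtain ⟨A', hA', hd, L', h1, h2, h3⟩ := near_step hT hmix hk c p.2.1 p.2.2.1 p.2.2.2.1 p.2.2.2.2
    exact ⟨⟨(A', L'), hA', h1, h2.trans ((half_le_self p.2.2.1).trans p.2.2.2.1), h3⟩, hd, h2⟩
  choose g hg1 hg2 using hnext
  let seq : ℕ → St := fun s => g^[s] ⟨(A, L), hA, hL0, hL, h⟩
  have hseq : ∀ s, seq (s + 1) = g (seq s) := fun s => Function.iterate_succ_apply' g s _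
  set As : ℕ → Set Ω := fun s => (seq s).1.1 with hAs
  have hLs : ∀ s, (seq s).1.2 ≤ L * (1/2:ℝ) ^ s := by
    intro s
    induction s with
    | zero => simp [seq]
    | succ s ih =>
      rw [hseq]; refine (hg2 _).trans ?_
      rw [pow_succ]; linarith
  set B := {x | ∀ᶠ s in atTop, x ∈ As s} with hBdef
  have hB : MeasurableSet B := by
    have : B = ⋃ N, ⋂ s, ⋂ (_ : N ≤ s), As s := by
      ext x; simp [hBdef, eventually_atTop]
    rw [this]
    exact MeasurableSet.iUnion fun N => MeasurableSet.iInter fun s =>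
      MeasurableSet.iInter fun _ => (seq s).2.1
  have hclose : ∀ s, μ.real (As s ∆ B) ≤ 4 * L * (1/2:ℝ) ^ s := by
    intro s
    have hsub : As s ∆ B ⊆ ⋃ r, As (s + r) ∆ As (s + r + 1) := by
      intro x hx
      by_contra hno
      simp only [mem_iUnion, not_exists] at hno
      have hc : ∀ r, (x ∈ As (s + r) ↔ x ∈ As s) := by
        intro r
        induction r with
        | zero => simp
        | succ r ih =>
          have := hno r
          simp only [Set.mem_symmDiff] at this
          rw [← add_assoc]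
          tauto
      have hBiff : x ∈ B ↔ x ∈ As s := by
        simp only [hBdef, mem_ofPred_eq, eventually_atTop]
        constructor
        · rintro ⟨N, hN⟩; exact (hc N).1 (hN _ (Nat.le_add_left N s))
        · exact fun hs => ⟨s, fun r hr => by
            obtain ⟨q, rfl⟩ := Nat.exists_eq_add_of_le hr
            exact (hc q).2 hs⟩
      rw [Set.mem_symmDiff] at hx
      tauto
    have hr : ∀ r, μ (As (s + r) ∆ As (s + r + 1)) ≤
        ENNReal.ofReal (2 * L * (1/2:ℝ) ^ s * (1/2) ^ r) := fun r => by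
      rw [← ofReal_measureReal]
      refine ENNReal.ofReal_le_ofReal ?_
      have := hg1 (seq (s + r))
      rw [← hseq] at this
      refine this.trans ?_
      have := hLs (s + r)
      rw [pow_add] at this
      nlinarith
    refine ENNReal.toReal_le_of_le_ofReal (by positivity)
      ((measure_mono hsub).trans ((measure_iUnion_le _).trans ((ENNReal.tsum_le_tsum hr).trans ?_)))
    rw [← ENNReal.ofReal_tsum_of_nonneg (fun r => by positivity)
      (summable_geometric_two.mul_left _), tsum_mul_left, tsum_geometric_two]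
    exact ENNReal.ofReal_le_ofReal (le_of_eq (by ring))
  have hfin : ∀ s : ℕ, ∃ t : Fin k → ℤ, (∀ i j, i ≠ j → s < (t i - t j).natAbs) ∧
      μ.real (D T B c t) ≤ (1 + (1 + 4 * k) * L) * (1/2:ℝ) ^ s := by
    intro s
    obtain ⟨t, ht, hlim⟩ := (seq s).2.2.2.2
    have hsp : ∀ᶠ n in atTop, ∀ i j, i ≠ j → s < (t n i - t n j).natAbs := by
      have h : ∀ p : Fin k × Fin k, ∀ᶠ n in atTop, p.1 ≠ p.2 → s < (t n p.1 - t n p.2).natAbs := by
        intro p
        by_cases hp : p.1 = p.2
        · exact Eventually.of_forall fun n h => absurd hp h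
        · have hfs : ∀ᶠ z : ℤ in cofinite, s < z.natAbs := by
            refine eventually_cofinite.2 ((Set.finite_Icc (-(s:ℤ)) s).subset fun z hz => ?_)
            simp only [mem_ofPred_eq, mem_Icc] at hz ⊢
            omega
          filter_upwards [(ht _ _ hp).eventually hfs] with n hn _
          exact hn
      filter_upwards [eventually_all.2 h] with n hn i j hij
      exact hn (i, j) hij
    obtain ⟨n, hn1, hn2⟩ := (hsp.and (hlim.eventually_le_const
      (lt_add_of_pos_right _ (by positivity : (0:ℝ) < (1/2:ℝ) ^ s)))).exists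
    refine ⟨t n, hn1, ?_⟩
    refine (measureReal_mono (D_subset (As s) B c (t n))).trans
      ((measureReal_union_le _ _).trans ?_)
    have h2 : μ.real (⋃ i, P T (t n i) (As s ∆ B)) ≤ k * (4 * L * (1/2:ℝ) ^ s) := by
      refine (measureReal_iUnion_fintype_le _).trans ?_
      have hm : MeasurableSet (As s ∆ B) := (seq s).2.1.symmDiff hB
      simp only [real_P hT _ hm, Finset.sum_const, Finset.card_univ,
        Fintype.card_fin, nsmul_eq_mul]
      exact mul_le_mul_of_nonneg_left (hclose s) (by positivity)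
    have := hLs s
    have h3 : μ.real (D T (As s) c (t n)) ≤ (seq s).1.2 + (1/2:ℝ) ^ s := hn2
    nlinarith
  choose t ht1 ht2 using hfin
  have hnear : Near μ T k B c 0 := by
    refine ⟨t, fun i j hij => le_cofinite_iff_eventually_ne.2 fun z => ?_,
      squeeze_zero (fun s => measureReal_nonneg) ht2 ?_⟩
    · refine eventually_map.2 (eventually_atTop.2 ⟨z.natAbs, fun s hs e => ?_⟩)
      have := ht1 s i j hij
      rw [e] at this
      omega
    · simpa using (tendsto_pow_atTop_nhds_zero_of_lt_one (by norm_num : (0:ℝ) ≤ 1/2)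
        (by norm_num)).const_mul (1 + (1 + 4 * (k:ℝ)) * L)
  have hz := near_zero_trivial hT hmix hk c hB hnear
  have h0 := hclose 0
  simp only [pow_zero, mul_one] at h0
  have e : As 0 = A := rfl
  rw [e] at h0
  have hab : |μ.real A - μ.real B| ≤ μ.real (A ∆ B) :=
    abs_measureReal_sub_le_measureReal_symmDiff hA.nullMeasurableSet hB.nullMeasurableSet
  have a1 : μ.real A ≤ 1 := measureReal_le_one
  have b1 : μ.real B ≤ 1 := measureReal_le_one
  have a0 : (0:ℝ) ≤ μ.real A := measureReal_nonneg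
  have b0 : (0:ℝ) ≤ μ.real B := measureReal_nonneg
  have key : μ.real A * (1 - μ.real A) - μ.real B * (1 - μ.real B) ≤ |μ.real A - μ.real B| := by
    rcases abs_cases (μ.real A - μ.real B) with ⟨h1, h2⟩ | ⟨h1, h2⟩ <;> rw [h1] <;> nlinarith
  linarith

/-- The defect of a parity relation is bounded below at all large spreads. -/
theorem defect_bound [IsProbabilityMeasure μ] (hT : MeasurePreserving T μ μ) (hmix : Mix μ T)
    (hk : 2 ≤ k) (c : ZMod 2) {A : Set Ω} (hA : MeasurableSet A) :
    ∃ N : ℕ, ∀ t : Fin k → ℤ, (∀ i j, i ≠ j → (N:ℤ) ≤ |t i - t j|) →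
      1 / (8 * C k) * (μ.real A * (1 - μ.real A)) ≤ μ.real (D T A c t) := by
  by_contra hcon
  push Not at hcon
  choose t ht1 ht2 using hcon
  have hC := C_pos hk
  have a1 : μ.real A ≤ 1 := measureReal_le_one
  have a0 : (0:ℝ) ≤ μ.real A := measureReal_nonneg
  set v := μ.real A * (1 - μ.real A) with hv
  obtain ⟨L, hL, φ, hφ, hlim⟩ := isCompact_Icc.tendsto_subseq
    (x := fun n => μ.real (D T A c (t n)))
    (fun n => show _ ∈ Icc (0:ℝ) (1 / (8 * C k) * v) from ⟨measureReal_nonneg, (ht2 n).le⟩)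
  have hsp : Spread t := fun i j hij => le_cofinite_iff_eventually_ne.2 fun z => by
    refine eventually_map.2 (eventually_atTop.2 ⟨z.natAbs + 1, fun s hs e => ?_⟩)
    have := ht1 s i j hij
    rw [e, ← Int.natCast_natAbs] at this
    omega
  have hv1 : v ≤ 1 := by rw [hv]; nlinarith
  have hL' : L ≤ 1 / (2 * C k) :=
    hL.2.trans ((mul_le_of_le_one_right (by positivity) hv1).trans
      (one_div_le_one_div_of_le (by positivity) (by linarith)))
  have h := near_small_trivial hT hmix hk c hA hL.1 hL' ⟨_, hsp.comp hφ.tendsto_atTop, hlim⟩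
  have hvpos : 0 < v := by
    by_contra hv0
    have := ht2 0
    have h' : 1 / (8 * C k) * v ≤ 0 :=
      mul_nonpos_of_nonneg_of_nonpos (by positivity) (not_lt.1 hv0)
    linarith [measureReal_nonneg (μ := μ) (s := D T A c (t 0))]
  have hC1 : 1 ≤ C k := by
    unfold C
    have : (1:ℝ) ≤ (k:ℝ) ^ 6 := one_le_pow₀ (by exact_mod_cast (by omega : 1 ≤ k))
    linarith
  have : 1 / (8 * C k) * v ≤ v / 8 := by
    rw [div_mul_eq_mul_div, one_mul]
    exact div_le_div_of_nonneg_left hvpos.le (by norm_num) (by linarith)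
  linarith [hL.2]

theorem prod_sign (A : Set Ω) [DecidablePred (· ∈ A)] (t : Fin k → ℤ) (x : Ω) :
    (∏ i, (if S T (t i) x ∈ A then (-1:ℝ) else 1)) = 1 - 2 * (D T A 0 t).indicator (fun _ => (1:ℝ)) x := by
  have key : ∀ s : Finset (Fin k), (∏ i ∈ s, (if S T (t i) x ∈ A then (-1:ℝ) else 1)) =
      if (∑ i ∈ s, A.indicator (fun _ => (1 : ZMod 2)) (S T (t i) x)) = 1 then -1 else 1 := by
    intro s
    induction s using Finset.induction_on with
    | empty => simp
    | @insert a s ha ih =>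
      rw [Finset.prod_insert ha, Finset.sum_insert ha, ih]
      by_cases h : S T (t a) x ∈ A
      · rw [if_pos h, Set.indicator_of_mem h]
        have e0 : ∀ z : ZMod 2, (1 + z = 1 ↔ ¬ z = 1) := by decide
        simp only [e0]
        split_ifs <;> norm_num
      · rw [if_neg h, Set.indicator_of_notMem h, zero_add, one_mul]
  rw [key Finset.univ]
  by_cases h : x ∈ D T A 0 t
  · rw [Set.indicator_of_mem h, if_pos (by simpa [D, par] using h)]; norm_num
  · rw [Set.indicator_of_notMem h, if_neg (by simpa [D, par] using h)]; norm_num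

end

end Vale.P102
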