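import Vale.Agent.P102.Multi

/-!
P102: the consequence for triple intersections of a set of measure one half.
-/

open MeasureTheory Filter Set Topology

namespace Vale.P102

noncomputable section

variable {Ω : Type*} [MeasurableSpace Ω] {μ : Measure Ω} {T : Ω ≃ᵐ Ω} {k : ℕ}

theorem corr_bound [IsProbabilityMeasure μ] (hT : MeasurePreserving T μ μ) (hmix : Mix μ T)
    (hk : 2 ≤ k) {A : Fin k → Set Ω} [∀ i, DecidablePred (· ∈ A i)]
    (hA : ∀ i, MeasurableSet (A i)) :
    ∃ N : ℕ, ∀ t : Fin k → ℤ, (∀ i j, i ≠ j → (N:ℤ) ≤ |t i - t j|) → ∀ i,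
      |∫ x, ∏ j, (if S T (t j) x ∈ A j then (-1:ℝ) else 1) ∂μ| ≤
        1 - 1 / (4 * k.factorial * C k.factorial) * (μ.real (A i) * (1 - μ.real (A i))) := by
  choose N0 h0 using fun i => defect_bound_multi hT hmix hk 0 hA i
  choose N1 h1 using fun i => defect_bound_multi hT hmix hk 1 hA i
  refine ⟨Finset.univ.sup fun i => max (N0 i) (N1 i), fun t ht i => ?_⟩
  have hle : max (N0 i) (N1 i) ≤ Finset.univ.sup fun i => max (N0 i) (N1 i) :=
    Finset.le_sup (f := fun i => max (N0 i) (N1 i)) (Finset.mem_univ i)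
  have b0 := h0 i t fun a b hab =>
    le_trans (by exact_mod_cast (le_max_left _ _).trans hle) (ht a b hab)
  have b1 := h1 i t fun a b hab =>
    le_trans (by exact_mod_cast (le_max_right _ _).trans hle) (ht a b hab)
  have hD := measurableSet_Dv (μ := μ) hT hA 0 t
  have hc : Dv T A 1 t = (Dv T A 0 t)ᶜ := by
    ext x
    show (1 : ZMod 2) + parv T A t x = 1 ↔ ¬ ((0 : ZMod 2) + parv T A t x = 1)
    generalize parv T A t x = z
    revert z; decide
  rw [hc, probReal_compl_eq_one_sub hD] at b1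
  have e : ∫ x, ∏ j, (if S T (t j) x ∈ A j then (-1:ℝ) else 1) ∂μ
      = 1 - 2 * μ.real (Dv T A 0 t) := by
    rw [← integral_ind hD]
    simp only [prod_sign_multi]
    show ∫ x, (1:ℝ) - 2 * ind (Dv T A 0 t) x ∂μ = 1 - 2 * ∫ x, ind (Dv T A 0 t) x ∂μ
    rw [integral_sub (integrable_const _) ((integrable_ind hD).const_mul 2)]
    simp [ind, integral_const_mul]
  rw [e, show 1 / (4 * (k.factorial : ℝ) * C k.factorial) =
    2 * (1 / (8 * k.factorial * C k.factorial)) by ring, abs_le]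
  constructor <;> linarith

theorem triple_identity [IsProbabilityMeasure μ] (hT : MeasurePreserving T μ μ) {A : Fin 3 → Set Ω}
    [∀ i, DecidablePred (· ∈ A i)] (hA : ∀ i, MeasurableSet (A i)) (t : Fin 3 → ℤ) :
    ∫ x, ∏ i, (if S T (t i) x ∈ A i then (-1:ℝ) else 1) ∂μ =
      1 - 2 * (μ.real (A 0) + μ.real (A 1) + μ.real (A 2))
        + 4 * (μ.real (P T (t 0) (A 0) ∩ P T (t 1) (A 1)) + μ.real (P T (t 0) (A 0) ∩ P T (t 2) (A 2))
          + μ.real (P T (t 1) (A 1) ∩ P T (t 2) (A 2)))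
        - 8 * μ.real (P T (t 0) (A 0) ∩ P T (t 1) (A 1) ∩ P T (t 2) (A 2)) := by
  have hm := fun i => measurableSet_P (μ := μ) hT (t i) (hA i)
  have hpt : ∀ x, (∏ i, (if S T (t i) x ∈ A i then (-1:ℝ) else 1)) =
      1 - 2 * (ind (P T (t 0) (A 0)) x + ind (P T (t 1) (A 1)) x + ind (P T (t 2) (A 2)) x)
        + 4 * (ind (P T (t 0) (A 0) ∩ P T (t 1) (A 1)) x + ind (P T (t 0) (A 0) ∩ P T (t 2) (A 2)) x
          + ind (P T (t 1) (A 1) ∩ P T (t 2) (A 2)) x)
        - 8 * ind (P T (t 0) (A 0) ∩ P T (t 1) (A 1) ∩ P T (t 2) (A 2)) x := by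
    intro x
    rw [Fin.prod_univ_three]
    by_cases h0 : S T (t 0) x ∈ A 0 <;> by_cases h1 : S T (t 1) x ∈ A 1 <;>
      by_cases h2 : S T (t 2) x ∈ A 2 <;> simp [ind, P, h0, h1, h2] <;> norm_num
  simp only [hpt]
  have i1 : Integrable (fun x => 2 * (ind (P T (t 0) (A 0)) x + ind (P T (t 1) (A 1)) x
      + ind (P T (t 2) (A 2)) x)) μ :=
    (((integrable_ind (hm 0)).add (integrable_ind (hm 1))).add (integrable_ind (hm 2))).const_mul 2
  have i2 : Integrable (fun x => 4 * (ind (P T (t 0) (A 0) ∩ P T (t 1) (A 1)) x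
      + ind (P T (t 0) (A 0) ∩ P T (t 2) (A 2)) x + ind (P T (t 1) (A 1) ∩ P T (t 2) (A 2)) x)) μ :=
    (((integrable_ind ((hm 0).inter (hm 1))).add (integrable_ind ((hm 0).inter (hm 2)))).add
      (integrable_ind ((hm 1).inter (hm 2)))).const_mul 4
  have i3 : Integrable (fun x => 8 * ind (P T (t 0) (A 0) ∩ P T (t 1) (A 1) ∩ P T (t 2) (A 2)) x) μ :=
    (integrable_ind (((hm 0).inter (hm 1)).inter (hm 2))).const_mul 8
  have j1 : Integrable (fun x => ind (P T (t 0) (A 0)) x + ind (P T (t 1) (A 1)) x) μ :=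
    (integrable_ind (hm 0)).add (integrable_ind (hm 1))
  have j2 : Integrable (fun x => ind (P T (t 0) (A 0) ∩ P T (t 1) (A 1)) x
      + ind (P T (t 0) (A 0) ∩ P T (t 2) (A 2)) x) μ :=
    (integrable_ind ((hm 0).inter (hm 1))).add (integrable_ind ((hm 0).inter (hm 2)))
  have k1 : Integrable (fun x => 1 - 2 * (ind (P T (t 0) (A 0)) x + ind (P T (t 1) (A 1)) x
      + ind (P T (t 2) (A 2)) x)) μ := (integrable_const 1).sub i1
  have k12 : Integrable (fun x => 1 - 2 * (ind (P T (t 0) (A 0)) x + ind (P T (t 1) (A 1)) x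
      + ind (P T (t 2) (A 2)) x) + 4 * (ind (P T (t 0) (A 0) ∩ P T (t 1) (A 1)) x
      + ind (P T (t 0) (A 0) ∩ P T (t 2) (A 2)) x + ind (P T (t 1) (A 1) ∩ P T (t 2) (A 2)) x)) μ := k1.add i2
  rw [integral_sub k12 i3, integral_add k1 i2, integral_sub (integrable_const 1) i1,
    integral_const_mul, integral_const_mul, integral_const_mul,
    integral_add j1 (integrable_ind (hm 2)), integral_add (integrable_ind (hm 0)) (integrable_ind (hm 1)),
    integral_add j2 (integrable_ind ((hm 1).inter (hm 2))),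
    integral_add (integrable_ind ((hm 0).inter (hm 1))) (integrable_ind ((hm 0).inter (hm 2))),
    integral_ind (hm 0), integral_ind (hm 1), integral_ind (hm 2),
    integral_ind ((hm 0).inter (hm 1)), integral_ind ((hm 0).inter (hm 2)),
    integral_ind ((hm 1).inter (hm 2)), integral_ind (((hm 0).inter (hm 1)).inter (hm 2)),
    real_P hT _ (hA 0), real_P hT _ (hA 1), real_P hT _ (hA 2)]
  simp

theorem triple_bound [IsProbabilityMeasure μ] (hT : MeasurePreserving T μ μ) (hmix : Mix μ T)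
    {A : Fin 3 → Set Ω} (hA : ∀ i, MeasurableSet (A i)) (hhalf : ∀ i, μ.real (A i) = 1 / 2) :
    ∃ N : ℕ, ∀ t : Fin 3 → ℤ, (∀ i j, i ≠ j → (N:ℤ) ≤ |t i - t j|) →
      μ.real (P T (t 0) (A 0) ∩ P T (t 1) (A 1) ∩ P T (t 2) (A 2)) ∈
        Icc (1 / (3072 * C 6)) (1 / 4 - 1 / (3072 * C 6)) := by
  classical
  have hC : 0 < C 6 := C_pos (by norm_num)
  obtain ⟨N, hN⟩ := corr_bound hT hmix (k := 3) (by norm_num) hA
  set g := 1 / (1536 * C 6) with hg
  have hg0 : 0 < g := by positivity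
  have hpair : ∀ p : Fin 3 × Fin 3, ∃ M : ℕ, ∀ a b : ℤ, (M:ℤ) ≤ |a - b| →
      |μ.real (P T a (A p.1) ∩ P T b (A p.2)) - 1 / 4| < g := by
    intro p
    by_contra hcon
    push Not at hcon
    choose a b hab hfar using hcon
    have hd : Tendsto (fun n => b n - a n) atTop cofinite :=
      le_cofinite_iff_eventually_ne.2 fun z => eventually_map.2 (eventually_atTop.2
        ⟨z.natAbs + 1, fun s hs e => by
          have := hab s
          rw [abs_sub_comm, e, ← Int.natCast_natAbs] at this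
          omega⟩)
    have hlim := pair_limit hT hmix (hA p.1) (hA p.2) hd
    rw [hhalf, hhalf] at hlim
    obtain ⟨n, hn⟩ := (Metric.tendsto_atTop.1 hlim g hg0).imp fun n h => h n le_rfl
    rw [Real.dist_eq, show (1 / 2 : ℝ) * (1 / 2) = 1 / 4 by norm_num] at hn
    linarith [hfar n]
  choose M hM using hpair
  refine ⟨max N (Finset.univ.sup M), fun t ht => ?_⟩
  have hb := hN t (fun i j hij => le_trans (by exact_mod_cast le_max_left _ _) (ht i j hij)) 0
  have hp : ∀ i j, i ≠ j → |μ.real (P T (t i) (A i) ∩ P T (t j) (A j)) - 1 / 4| < g := fun i j hij =>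
    hM (i, j) _ _ (le_trans (by
      exact_mod_cast (Finset.le_sup (f := M) (Finset.mem_univ (i, j))).trans (le_max_right _ _))
      (ht i j hij))
  rw [triple_identity hT hA t, hhalf, hhalf, hhalf,
    show (1:ℝ) / (4 * ((3:ℕ).factorial : ℕ) * C (3:ℕ).factorial) * (1/2 * (1 - 1/2)) = 16 * g by
      rw [hg, show (3:ℕ).factorial = 6 from rfl]; push_cast; ring, abs_le] at hb
  have p01 := abs_lt.1 (hp 0 1 (by decide))
  have p02 := abs_lt.1 (hp 0 2 (by decide))
  have p12 := abs_lt.1 (hp 1 2 (by decide))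
  have hh : 1 / (3072 * C 6) = g / 2 := by rw [hg]; ring
  rw [hh]
  constructor <;> linarith

end

end Vale.P102
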