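import Vale.Agent.P102.Cover

/-!
P102: weak limits of sets along the hyperfilter.
-/

open MeasureTheory Filter Set Topology
open scoped InnerProductSpace

namespace Vale.P102

noncomputable section

variable {Ω : Type*} [MeasurableSpace Ω] {μ : Measure Ω}

/-- The weak limit of a sequence of subsets of `Z` along an ultrafilter. -/
theorem exists_weak_limit [IsProbabilityMeasure μ] (U : Ultrafilter ℕ) {Q : ℕ → Set Ω} {Z : Set Ω}
    (hQ : ∀ m, MeasurableSet (Q m)) (hZ : MeasurableSet Z) (hQZ : ∀ m, Q m ⊆ Z) :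
    ∃ h : Ω → ℝ, Measurable h ∧ (∀ x, 0 ≤ h x) ∧ (∀ x, h x ≤ ind Z x) ∧
      ∀ E, MeasurableSet E → Tendsto (fun m => μ.real (Q m ∩ E)) U (𝓝 (∫ x in E, h x ∂μ)) := by
  set v : ℕ → Lp ℝ 2 μ := fun m => indicatorConstLp 2 (hQ m) (measure_ne_top μ _) (1 : ℝ)
  have hv : ∀ m, ‖v m‖ ≤ 1 := fun m => by
    refine norm_indicatorConstLp_le.trans ?_
    rw [norm_one, one_mul]
    exact Real.rpow_le_one measureReal_nonneg measureReal_le_one (by positivity)
  have hlim : ∀ g : Lp ℝ 2 μ, ∃ r ∈ Icc (-‖g‖) ‖g‖, Tendsto (fun m => ⟪v m, g⟫_ℝ) U (𝓝 r) := by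
    intro g
    have hmem : ∀ m, ⟪v m, g⟫_ℝ ∈ Icc (-‖g‖) ‖g‖ := fun m => by
      have h := (abs_real_inner_le_norm (v m) g).trans
        (mul_le_of_le_one_left (norm_nonneg g) (hv m))
      exact abs_le.1 h
    exact isCompact_Icc.ultrafilter_le_nhds' (U.map fun m => ⟪v m, g⟫_ℝ)
      (Ultrafilter.mem_map.2 (Filter.univ_mem' hmem))
  choose L hL hLt using hlim
  let l : Lp ℝ 2 μ →ₗ[ℝ] ℝ :=
    { toFun := L
      map_add' := fun a b => tendsto_nhds_unique (hLt (a + b))
        (((hLt a).add (hLt b)).congr fun m => (inner_add_right _ _ _).symm)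
      map_smul' := fun r a => tendsto_nhds_unique (hLt (r • a))
        (((hLt a).const_mul r).congr fun m => (real_inner_smul_right _ _ _).symm) }
  set f : Lp ℝ 2 μ := (InnerProductSpace.toDual ℝ (Lp ℝ 2 μ)).symm
    (l.mkContinuous 1 fun g => by simpa [l, abs_le] using hL g)
  have hf : ∀ g, ⟪f, g⟫_ℝ = L g := fun g => InnerProductSpace.toDual_symm_apply
  have hE : ∀ E, MeasurableSet E →
      Tendsto (fun m => μ.real (Q m ∩ E)) U (𝓝 (∫ x in E, f x ∂μ)) := by
    intro E hEm
    have h := hLt (indicatorConstLp 2 hEm (measure_ne_top μ E) (1 : ℝ))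
    rw [← hf, real_inner_comm, L2.inner_indicatorConstLp_one] at h
    refine h.congr fun m => ?_
    rw [L2.inner_indicatorConstLp_one,
      setIntegral_congr_ae (hQ m) (indicatorConstLp_coeFn.mono fun x hx _ => hx),
      setIntegral_indicator hEm, setIntegral_const, smul_eq_mul, mul_one]
  have hfi : Integrable (f : Ω → ℝ) μ := (Lp.memLp f).integrable (by norm_num)
  have h0 : 0 ≤ᵐ[μ] (f : Ω → ℝ) := ae_nonneg_of_forall_setIntegral_nonneg hfi fun E hEm _ =>
    ge_of_tendsto' (hE E hEm) fun m => measureReal_nonneg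
  have h1 : (f : Ω → ℝ) ≤ᵐ[μ] ind Z := ae_le_of_forall_setIntegral_le hfi (integrable_ind hZ)
    fun E hEm _ => by
      rw [show ∫ x in E, ind Z x ∂μ = μ.real (E ∩ Z) by
        simp [ind, setIntegral_indicator hZ]]
      exact le_of_tendsto' (hE E hEm) fun m =>
        measureReal_mono fun x hx => ⟨hx.2, hQZ m hx.1⟩
  refine ⟨fun x => max 0 (min (f x) (ind Z x)),
    measurable_const.max ((Lp.stronglyMeasurable f).measurable.min
      (measurable_const.indicator hZ)), fun x => le_max_left _ _,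
    fun x => max_le (ind_nonneg _ _) (min_le_right _ _), fun E hEm => ?_⟩
  convert hE E hEm using 2
  refine setIntegral_congr_ae hEm ?_
  filter_upwards [h0, h1] with x hx0 hx1 _
  rw [min_eq_left hx1]
  exact max_eq_right hx0

end

end Vale.P102
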